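import Vale.Agent.P352X.Spec
import Vale.Agent.P352.H246.ImpJDefs

/-!
# P352Z: tensor fields, logarithmic families, potentials
-/

set_option linter.all false

open MeasureTheory Filter Topology
open scoped SchwartzMap ComplexConjugate ENNReal ContDiff

namespace Vale.Agent.P352X.ZZ

open Vale.Agent.P352 Vale.Agent.P352.GF Vale.Agent.P352.BW Vale.Agent.P352.H246
open Vale.Agent.P352.H496 Vale.Agent.P352.H755 Vale.Agent.P352.H15
open UniformSpace (Completion)

noncomputable section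

variable {D : Type*} [NormedAddCommGroup D] [InnerProductSpace ℂ D]

/-- hermitian Poincare covariant vector fields -/
structure P1 (Q : Theory D) (J : Ix → Fld D) : Prop where
  bose : ∀ m, Q.bose (J m)
  herm : ∀ m f v w, IsTest f → inner ℂ (J m f v) w = inner ℂ v (J m (bar f) w)
  cov : ∀ m L a f v, IsLor L → IsTest f → J m f (Q.U 1 L a v) =
    ∑ k, (L k m : ℂ) • Q.U 1 L a (J k (fun x => f (sim 1 L a x)) v)
  perp : ∀ m f, IsTest f → inner ℂ Q.vac (J m f Q.vac) = 0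

/-- hermitian Poincare covariant tensor fields of rank two -/
structure P2 (Q : Theory D) (T : Ix → Ix → Fld D) : Prop where
  bose : ∀ m n, Q.bose (T m n)
  herm : ∀ m n f v w, IsTest f → inner ℂ (T m n f v) w = inner ℂ v (T m n (bar f) w)
  cov : ∀ m n L a f v, IsLor L → IsTest f → T m n f (Q.U 1 L a v) =
    ∑ k, ∑ l, (L k m * L l n : ℂ) • Q.U 1 L a (T k l (fun x => f (sim 1 L a x)) v)
  perp : ∀ m n f, IsTest f → inner ℂ Q.vac (T m n f Q.vac) = 0

/-- `∂^l (T^{mn} - T^{nm})` -/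
def cu (T : Ix → Ix → Fld D) (l m n : Ix) : Fld D := fun f v =>
  (eta l : ℂ) • (T m n (pd l f) v - T n m (pd l f) v)

/-- dimension four, conserved in the first index, traceless, with closed antisymmetric part -/
structure CT (Q : Theory D) (T : Ix → Ix → Fld D) : Prop where
  cov : ∀ m n s L a f v, 0 < s → IsLor L → IsTest f → T m n f (Q.U s L a v) =
    ∑ k, ∑ l, (L k m * L l n : ℂ) • Q.U s L a (T k l (fun x => f (sim s L a x)) v)
  conserved : ∀ n f v, IsTest f → ∑ m, T m n (pd m f) v = 0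
  trace : ∀ f v, IsTest f → GF.tr T f v = 0
  bian : ∀ l m n f v, IsTest f → cu T l m n f v + cu T m n l f v + cu T n l m f v = 0

/-- symmetric, conserved, with the Poincare charges -/
structure Chs (Q : Theory D) (T : Ix → Ix → Fld D) (A : (V → V) → D → D) : Prop where
  symm : ∀ m n f v, IsTest f → T m n f v = T n m f v
  conserved : ∀ n f v, IsTest f → ∑ m, T m n (pd m f) v = 0
  pch : ND.PCh Q T A

/-- `exp (l N)` on a chain `x j = N ^ j x` that ends at `k` -/
def ex0 {E : Type*} [AddCommGroup E] [Module ℂ E] (k : ℕ) (l : ℝ) (x : ℕ → E) : E :=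
  ∑ j ∈ Finset.range (k + 1), ((l ^ j / j.factorial : ℝ) : ℂ) • x j

/-- the family `S_l` -/
def fam2 (k : ℕ) (Sj : ℕ → Ix → Ix → Fld D) (l : ℝ) : Ix → Ix → Fld D := fun m n f v =>
  ex0 k l fun j => Sj j m n f v

/-- the family `V_l` -/
def fam1 (k : ℕ) (Vj : ℕ → Ix → Fld D) (l : ℝ) : Ix → Fld D := fun m f v =>
  ex0 k l fun j => Vj j m f v

/-- the family `σ_l` -/
def fam0 (k : ℕ) (sg : ℕ → Fn → Completion D) (l : ℝ) : Fn → Completion D := fun f =>
  ex0 k l fun j => sg j f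

/-- logarithmic chains: `Sj j = N ^ j S` of dimension four, `Vj j = N ^ j V` of dimension three,
`tr S = ∂.V` -/
structure Fam (Q : Theory D) (k : ℕ) (Sj : ℕ → Ix → Ix → Fld D) (Vj : ℕ → Ix → Fld D) : Prop where
  p2 : ∀ j, P2 Q (Sj j)
  p1 : ∀ j, P1 Q (Vj j)
  p2l : ∀ l, P2 Q (fam2 k Sj l)
  p1l : ∀ l, P1 Q (fam1 k Vj l)
  top2 : ∀ j m n f v, k < j → IsTest f → Sj j m n f v = 0
  top1 : ∀ j m f v, k < j → IsTest f → Vj j m f v = 0
  symm : ∀ j m n f v, IsTest f → Sj j m n f v = Sj j n m f v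
  conserved : ∀ j n f v, IsTest f → ∑ m, Sj j m n (pd m f) v = 0
  div : ∀ j f v, IsTest f → GF.tr (Sj j) f v = -∑ m, Vj j m (pd m f) v
  cov2 : ∀ l m n s L a f v, 0 < s → IsLor L → IsTest f → fam2 k Sj l m n f (Q.U s L a v) =
    ∑ i, ∑ j, (L i m * L j n : ℂ) •
      Q.U s L a (fam2 k Sj (l + Real.log s) i j (fun x => f (sim s L a x)) v)
  cov1 : ∀ l m s L a f v, 0 < s → IsLor L → IsTest f → fam1 k Vj l m f (Q.U s L a v) =
    ∑ i, (s * L i m : ℂ) • Q.U s L a (fam1 k Vj (l + Real.log s) i (fun x => f (sim s L a x)) v)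

/-- the potentials `□ σ_j = tr S_j` -/
structure Pot (Q : Theory D) (N : Set V → VonNeumannAlgebra (Completion D)) (k : ℕ)
    (Sj : ℕ → Ix → Ix → Fld D) (Vj : ℕ → Ix → Fld D) (sg : ℕ → Fn → Completion D) : Prop where
  lin : ∀ j (f g : Fn) (a : ℂ), IsTest f → IsTest g →
    sg j (fun x => f x + a * g x) = sg j f + a • sg j g
  cont : ∀ j, Continuous fun g => sg j (ev g)
  top : ∀ j f, k < j → IsTest f → sg j f = 0
  trace : ∀ j f, IsTest f → sg j (box f) = ((GF.tr (Sj j) f Q.vac : D) : Completion D)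
  cov : ∀ l s L a f, 0 < s → IsLor L → IsTest f →
    Ug Q s L a (fam0 k sg (l + Real.log s) fun x => f (sim s L a x)) =
      ((s ^ 2)⁻¹ : ℝ) • fam0 k sg l f
  perp : ∀ j f, IsTest f → inner ℂ (om Q) (sg j f) = 0
  wl : ∀ j a b y f, IsNull a → IsNull b → 0 < mdot a b → In (Wdg a b y) f →
    Pr (N (Wdg a b y)) (om Q) (sg j f) (sg j (bar f))
  grad : ∀ j m f, 1 ≤ j → IsTest f →
    ((Vj j m f Q.vac : D) : Completion D) = -(eta m : ℂ) • sg j (pd m f)

/-- the data of the main chain: `T = S_l + (∂ V_l - η ∂.V_l) / 3` has no logarithms -/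
structure Can (Q : Theory D) (T : Ix → Ix → Fld D) (A : (V → V) → D → D)
    (N : Set V → VonNeumannAlgebra (Completion D)) (k : ℕ) (Sj : ℕ → Ix → Ix → Fld D)
    (Vj : ℕ → Ix → Fld D) (sg : ℕ → Fn → Completion D) : Prop where
  ct : CT Q T
  fam : Fam Q k Sj Vj
  pch : ∀ l, ND.PCh Q (fam2 k Sj l) A
  rel : ∀ l m n f v, IsTest f → T m n f v = improveJ (fam2 k Sj l) (fam1 k Vj l) m n f v
  pot : Pot Q N k Sj Vj sg

/-- time ordered (`e = true`) or anti-time ordered (`e = false`) products of two components -/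
structure TP2 (Q : Theory D) (T : Ix → Ix → Fld D) (e : Bool)
    (w : I2 → I2 → S2 →L[ℂ] Completion D) : Prop where
  fac : ∀ I J (f g : Sch) (F : S2), (∀ x y, F (x, y) = f x * g y) →
    Late (tsupport f) (tsupport g) → w I J F =
      ((if e then T I.1 I.2 (ev f) (T J.1 J.2 (ev g) Q.vac)
        else T J.1 J.2 (ev g) (T I.1 I.2 (ev f) Q.vac) : D) : Completion D)
  swap : ∀ I J (F G : S2), (∀ x y, G (x, y) = F (y, x)) → w I J F = w J I G
  trc : ∀ J, ∑ m, (eta m : ℂ) • w (m, m) J = 0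
  cov : ∀ s L a I J (F G : S2), 0 < s → IsLor L →
    (∀ x y, G (x, y) = F (sim s L a x, sim s L a y)) → ∃ κ : ℂ,
      w I J F = ∑ K, ∑ M, (L2 L K I * L2 L M J) • Ue Q s L a (w K M G) + κ • om Q

/-- time ordered products of two and three components -/
structure TP (Q : Theory D) (T : Ix → Ix → Fld D) (wp wm : I2 → I2 → S2 →L[ℂ] Completion D)
    (t : I2 → I2 → I2 → S3 →L[ℂ] ℂ) : Prop where
  tp : TP2 Q T true wp
  tm : TP2 Q T false wm
  fac1 : ∀ I J K (f : Sch) (G : S2) (F : S3), (∀ x y z, F (x, y, z) = f x * G (y, z)) →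
    Late (tsupport f) (Prod.fst '' tsupport G ∪ Prod.snd '' tsupport G) →
      t I J K F = inner ℂ ((T I.1 I.2 (bar (ev f)) Q.vac : D) : Completion D) (wp J K G)
  fac3 : ∀ I J K (G G' : S2) (f : Sch) (F : S3), (∀ x y z, F (x, y, z) = G (x, y) * f z) →
    (∀ x, G' x = star (G x)) →
    Late (Prod.fst '' tsupport G ∪ Prod.snd '' tsupport G) (tsupport f) →
      t I J K F = inner ℂ (wm I J G') ((T K.1 K.2 (ev f) Q.vac : D) : Completion D)
  swap1 : ∀ I J K (F G : S3), (∀ x y z, G (x, y, z) = F (y, x, z)) → t I J K F = t J I K G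
  swap2 : ∀ I J K (F G : S3), (∀ x y z, G (x, y, z) = F (x, z, y)) → t I J K F = t I K J G
  trc : ∀ J K, ∑ m, (eta m : ℂ) • t (m, m) J K = 0
  cov : ∀ s L a I J K (F G : S3), 0 < s → IsLor L →
    (∀ x y z, G (x, y, z) = F (sim s L a x, sim s L a y, sim s L a z)) →
    (s = 1 ∨ ∀ x, (x, x, x) ∉ tsupport F) →
      t I J K F = ∑ I', ∑ J', ∑ K', L2 L I' I * L2 L J' J * L2 L K' K * t I' J' K' G

end

end Vale.Agent.P352X.ZZ
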