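import Vale.Agent.P352Z.Spec
import Vale.Agent.P352X.Main0

/-!
# P352Z: the dependency graph of the main chain
-/

set_option linter.all false

namespace Vale.Agent.P352X.ZZ

open Vale.Agent.P352 Vale.Agent.P352.GF Vale.Agent.P352.BW

variable {D : Type*} [NormedAddCommGroup D] [InnerProductSpace ℂ D]

/-- the rows of the main chain, with their dependencies -/
structure Rows (c : Ctx D) : Prop where
  bb : T3 c → BB c
  res : T3 c → RES c
  far : T3 c → FAR c
  ix : T3 c → FAR c → IX c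
  conm : T3 c → CONM c
  conk : T3 c → BB c → CONK c
  cont : T3 c → FAR c → CONM c → CONK c → CONT c
  sch : T3 c → SCH c
  ib : T3 c → IB c
  sw : T3 c → SW c
  yz : T3 c → RES c → FAR c → IX c → CONT c → IB c → SW c → YZ c
  d1 : T3 c → SCH c → YZ c → D1 c
  dd : T3 c → D1 c → DD c
  ee : T3 c → BB c → DD c → EE c
  nl : T3 c → DD c → EE c → NL c

theorem Rows.main {c : Ctx D} (r : Rows c) (t3 : T3 c) : NL c := by
  have bb := r.bb t3
  have far := r.far t3
  have yz := r.yz t3 (r.res t3) far (r.ix t3 far)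
    (r.cont t3 far (r.conm t3) (r.conk t3 bb)) (r.ib t3) (r.sw t3)
  have dd := r.dd t3 (r.d1 t3 (r.sch t3) yz)
  exact r.nl t3 dd (r.ee t3 bb dd)

/-- row CTX: the context exists -/
def CTX (D : Type*) [NormedAddCommGroup D] [InnerProductSpace ℂ D] : Prop :=
  ∀ (Q : Theory D) (T : Ix → Ix → Fld D) (A : (V → V) → D → D)
    (N : Set V → VonNeumannAlgebra (UniformSpace.Completion D)) k Sj Vj sg wp wm t (can tp : Prop),
    P2 Q T → TfGen Q → LNm Q A N → UVac Q → (can → Can Q T A N k Sj Vj sg) →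
    (tp → can ∧ TP Q T wp wm t) →
    ∃ c : Ctx D, c.Q = Q ∧ c.T = T ∧ c.A = A ∧ c.N = N ∧ c.k = k ∧ c.Sj = Sj ∧ c.Vj = Vj ∧
      c.sg = sg ∧ c.chg = False ∧ c.can = can ∧ c.tp = tp

end Vale.Agent.P352X.ZZ
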