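import Vale.Agent.P352Z.Defs

/-!
# P352Z: the rows
-/

set_option linter.all false

open MeasureTheory Filter Topology
open scoped SchwartzMap ComplexConjugate ENNReal ContDiff

namespace Vale.Agent.P352X.ZZ

open Vale.Agent.P352 Vale.Agent.P352.GF Vale.Agent.P352.BW Vale.Agent.P352.H246
open Vale.Agent.P352.H496 Vale.Agent.P352.H755 Vale.Agent.P352.H15
open Vale.Agent.P132 (ModData jconj)
open UniformSpace (Completion)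
open Complex (I)

noncomputable section

/-! ## level 0: no field theory -/

/-- row NULL -/
def NULL : Prop := ∀ (Λ : MvPolynomial Ix ℂ →ₗ[ℂ] MvPolynomial Ix ℂ →ₗ[ℂ] ℂ) (d : ℕ)
  (π w : Ix → Ix → MvPolynomial Ix ℂ), Fisch Λ → (∀ r s, (π r s).IsHomogeneous d) →
  (∀ s, ∑ r, MvPolynomial.C (eta r : ℂ) * MvPolynomial.X r * π r s = 0) →
  (∑ r, MvPolynomial.C (eta r : ℂ) * π r r = 0) →
  (∀ r s k, mup ∣ π r s * MvPolynomial.X k - π k s * MvPolynomial.X r) →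
  (∀ r s k, mup ∣ π r s * MvPolynomial.X k - π r k * MvPolynomial.X s) →
  (∀ r s, (w r s).IsHomogeneous d) →
  (∀ r s, ∑ i, MvPolynomial.C (eta i : ℂ) * MvPolynomial.pderiv i (MvPolynomial.pderiv i (w r s)) = 0) →
  (∑ r, ∑ s, MvPolynomial.C (eta r * eta s : ℂ) *
    MvPolynomial.pderiv r (MvPolynomial.pderiv s (w r s)) = 0) →
  ∑ r, ∑ s, Λ (π r s) (w r s) = 0

variable {D : Type*} [NormedAddCommGroup D] [InnerProductSpace ℂ D] (c : Ctx D)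

/-- row GRP: the group relations in null coordinates, and the action on the fields -/
structure GRP : Prop where
  na : IsNull va
  nb : IsNull vb
  nab : mdot va vb = 1
  uni : ∀ s L a, Ug c.Q s L a ∈ unitary (Completion D →L[ℂ] Completion D)
  vac : ∀ s L a, Ug c.Q s L a c.Om = c.Om
  mul : ∀ s L a s' L' a', 0 < s → 0 < s' → IsLor L → IsLor L' → Ug c.Q s L a * Ug c.Q s' L' a' =
    Ug c.Q (s * s') (fun m => sim 1 L 0 (L' m)) (sim s L a a')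
  coe : ∀ s L a (v : D), 0 < s → IsLor L → Ug c.Q s L a v = (c.Q.U s L a v : D)
  cont : ∀ (ι : Type) (l : Filter ι) (s : ι → ℝ) (L : ι → Ix → V) (a : ι → V) s0 L0 a0 v,
    (∀ i, 0 < s i ∧ IsLor (L i)) → 0 < s0 → IsLor L0 → Tendsto s l (𝓝 s0) → Tendsto L l (𝓝 L0) →
    Tendsto a l (𝓝 a0) → Tendsto (fun i => Ug c.Q (s i) (L i) (a i) v) l (𝓝 (Ug c.Q s0 L0 a0 v))
  alg : ∀ s L a O, 0 < s → IsLor L → ∀ X, X ∈ c.N O ↔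
    Ug c.Q s L a * X * star (Ug c.Q s L a) ∈ c.N (sim s L a '' O)
  lsc : ∀ r s, 0 < r → 0 < s →
    IsLor (bst va vb (Real.sqrt (r / s) - 1) (Real.sqrt (s / r) - 1)) ∧ ∀ z, sim (Real.sqrt (r * s))
      (bst va vb (Real.sqrt (r / s) - 1) (Real.sqrt (s / r) - 1)) 0 z = scp r s z
  lga : ∀ w : R2, IsLor (H746.nrt va (tv ((1 / 2 : ℝ) • w))) ∧
    ∀ z, sim 1 (H746.nrt va (tv ((1 / 2 : ℝ) • w))) 0 z = gap w z
  lgb : ∀ s : ℝ, IsLor (H746.nrt vb (tv ((s / 2) • e2 0))) ∧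
    ∀ z, sim 1 (H746.nrt vb (tv ((s / 2) • e2 0))) 0 z = gbp s z
  ut0 : Ut c.Q 0 = 1
  ut : ∀ x y, Ut c.Q (x + y) = Ut c.Q x * Ut c.Q y
  sc1 : Usc c.Q 1 1 = 1
  sc : ∀ r s r' s', 0 < r → 0 < s → 0 < r' → 0 < s' →
    Usc c.Q (r * r') (s * s') = Usc c.Q r s * Usc c.Q r' s'
  ga0 : Ga c.Q 0 = 1
  ga : ∀ v w, Ga c.Q (v + w) = Ga c.Q v * Ga c.Q w
  gb0 : Gb c.Q 0 = 1
  gb : ∀ s t, Gb c.Q (s + t) = Gb c.Q s * Gb c.Q t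
  sc_ut : ∀ r s y, 0 < r → 0 < s → Usc c.Q r s * Ut c.Q y = Ut c.Q (scp r s y) * Usc c.Q r s
  ga_ut : ∀ w y, Ga c.Q w * Ut c.Q y = Ut c.Q (gap w y) * Ga c.Q w
  gb_ut : ∀ s y, Gb c.Q s * Ut c.Q y = Ut c.Q (gbp s y) * Gb c.Q s
  sc_ga : ∀ r s w, 0 < r → 0 < s →
    Usc c.Q r s * Ga c.Q w = Ga c.Q (Real.sqrt (r / s) • w) * Usc c.Q r s
  sc_gb : ∀ r s t, 0 < r → 0 < s →
    Usc c.Q r s * Gb c.Q t = Gb c.Q (Real.sqrt (s / r) * t) * Usc c.Q r s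
  sc_S : ∀ r s t, 0 < r → 0 < s → Usc c.Q r s * c.SK t = c.SK (t / s) * Usc c.Q r s
  ga_S : ∀ w t, Ga c.Q w * c.SK t = c.SK t * Ga c.Q w
  pa_S : ∀ s t, Pa c.Q s * c.SK t = c.SK t * Pa c.Q s
  S_ut : ∀ t (y : R2), c.SK t * Ut c.Q (tv y) =
    Ut c.Q (tv y + (t * d2 y y) • va) * Ga c.Q ((2 * t) • y) * c.SK t
  S_uni : ∀ a t, IsNull a → c.S a t ∈ unitary (Completion D →L[ℂ] Completion D)
  ten1 : ∀ L a h k f v, IsLor L → IsTest f →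
    c.Q.U 1 L a (c.Tf (hk h k fun x => f (sim 1 L a x)) v) =
      c.Tf (hk (sim 1 L 0 h) (sim 1 L 0 k) f) (c.Q.U 1 L a v)
  th1 : ∀ L a h f v, IsLor L → IsTest f →
    c.Q.U 1 L a (c.Wf h (fun x => f (sim 1 L a x)) v) = c.Wf (sim 1 L 0 h) f (c.Q.U 1 L a v)
  ten0 : c.can → ∀ s L a h k f v, 0 < s → IsLor L → IsTest f →
    c.Q.U s L a (c.Tf (hk h k fun x => f (sim s L a x)) v) =
      c.Tf (hk (sim 1 L 0 h) (sim 1 L 0 k) f) (c.Q.U s L a v)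
  th0 : c.can → ∀ s L a h f v, 0 < s → IsLor L → IsTest f →
    c.Q.U s L a (c.Wf h (fun x => f (sim s L a x)) v) =
      (s : ℂ) • c.Wf (sim 1 L 0 h) f (c.Q.U s L a v)
  perp : ∀ m n f, IsTest f → inner ℂ c.Q.vac (c.T m n f c.Q.vac) = 0
  cons0 : c.can ∨ c.chg → ∀ h f v, IsTest f → c.Tf (hk va h (dv vb f)) v +
    c.Tf (hk vb h (dv va f)) v - ∑ i, c.Tf (hk (ex i) h (dv (ex i) f)) v = 0
  trace : ∀ h f v, IsTest f → c.Wf h f v = c.Tf (hk h va (dv vb f)) v +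
    c.Tf (hk h vb (dv va f)) v - ∑ i, c.Tf (hk h (ex i) (dv (ex i) f)) v
  wlin : ∀ (a : ℝ) h h' f v, IsTest f → c.Wf (h + a • h') f v = c.Wf h f v + (a : ℂ) • c.Wf h' f v
  afft : ∀ O F, (∀ m n, In O (F m n)) → T.Afs (c.N O) (c.Tf F) (c.Tf fun m n => bar (F m n))
  affh : ∀ O f, In O f → T.Afs (c.N O) (c.Thf f) (c.Thf (bar f))
  affa : ∀ O X X', Al c.Q O X X' → T.Afs (c.N O) X X'
  rs : ∀ O : Set V, IsOpen O → O.Nonempty → Dense {z | ∃ X ∈ c.N O, X c.Om = z}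
  md : ∀ r, 0 ≤ r → ∃ E : ModData (c.N (Rc r 0)) c.Om, ∀ t, E.U t =
    c.SK (r * (1 - Real.exp (-(2 * Real.pi * t)))) * Bo c.Q (-(2 * Real.pi * t))
  geo : ∀ r r' X, 0 ≤ r → 0 ≤ r' →
    (X ∈ c.N (Rc r 0) ↔ c.SK (r' - r) * X * c.SK (r - r') ∈ c.N (Rc r' 0))

theorem GRP.ten {c : Ctx D} [h : Fact c.can] (g : GRP c) : ∀ s L a h k f v, 0 < s → IsLor L →
    IsTest f → c.Q.U s L a (c.Tf (hk h k fun x => f (sim s L a x)) v) =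
      c.Tf (hk (sim 1 L 0 h) (sim 1 L 0 k) f) (c.Q.U s L a v) := g.ten0 h.out

theorem GRP.th {c : Ctx D} [h : Fact c.can] (g : GRP c) : ∀ s L a h f v, 0 < s → IsLor L →
    IsTest f → c.Q.U s L a (c.Wf h (fun x => f (sim s L a x)) v) =
      (s : ℂ) • c.Wf (sim 1 L 0 h) f (c.Q.U s L a v) := g.th0 h.out

theorem GRP.cons {c : Ctx D} [h : Fact c.can] (g : GRP c) : ∀ h f v, IsTest f →
    c.Tf (hk va h (dv vb f)) v + c.Tf (hk vb h (dv va f)) v -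
      ∑ i, c.Tf (hk (ex i) h (dv (ex i) f)) v = 0 := g.cons0 (.inl h.out)

/-- level 0 -/
structure T0 : Prop where
  lie : LIE
  ker : KER
  gff : GFF
  uq : UQ
  sym : SYM
  grp : GRP c

/-! ## level 1 -/

/-- row GEN: the generators on the vectors generated by one field -/
structure GEN : Prop where
  ut : ∀ y h k f, IsTest f →
    Gn (fun t => Ut c.Q (t • y)) (c.Tv (hk h k f)) (I • c.Tv (hk h k (dv y f)))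
  bo : ∀ h k f, IsTest f → Gn (Bo c.Q) (c.Tv (hk h k f)) (I • (c.Tv (hk h k (Bc f)) -
    c.Tv (hk (al h • va - be h • vb) k f) - c.Tv (hk h (al k • va - be k • vb) f)))
  mi : ∀ i h k f, IsTest f → Gn (Mi c.Q i) (c.Tv (hk h k f)) (I • (c.Tv (hk h k (Mc i f)) -
    c.Tv (hk (tx h i • va + be h • ex i) k f) - c.Tv (hk h (tx k i • va + be k • ex i) f)))
  gb : ∀ h k f, IsTest f → Gn (Gb c.Q) (c.Tv (hk h k f)) (I • (c.Tv (hk h k (Mb f)) -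
    c.Tv (hk (tx h 0 • vb + al h • ex 0) k f) - c.Tv (hk h (tx k 0 • vb + al k • ex 0) f)))
  uth : ∀ y f, IsTest f → Gn (fun t => Ut c.Q (t • y)) (c.Th f) (I • c.Th (dv y f))
  mith : ∀ i f, IsTest f → Gn (Mi c.Q i) (c.Th f) (I • c.Th (Mc i f))
  sm : ∀ v : D, ContDiff ℝ ∞ fun q => c.gq q (v : Completion D)
  bd : ∃ (m : ℕ) (C : ℝ), ∀ h k (f : Sch), ‖c.Tv (hk h k (ev f))‖ ≤ C * ‖h‖ * ‖k‖ * sn m f
  bd2 : ∀ v : D, ∃ (m : ℕ) (C : ℝ), ∀ i j k l (f g : Sch),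
    ‖c.T i j (ev f) (c.T k l (ev g) v)‖ ≤ C * sn m f * sn m g
  ky : ∀ (y : R2) ψ, Dm c.SK ψ → (∀ i, Dm (Mi c.Q i) ψ) → Dm (Pa c.Q) ψ →
    Gn (c.Ky (tv y)) ψ (gen c.SK ψ - ∑ i, ((2 * y i : ℝ) : ℂ) • gen (Mi c.Q i) ψ +
      (d2 y y : ℝ) • gen (Pa c.Q) ψ)

/-- row BAS: spectral measures, weak nullity, thin averages -/
structure BAS : Prop where
  cone : ∀ v, ∀ᵐ p ∂c.nu v, 0 ≤ p o ∧ 0 ≤ mu p
  ker : ∀ v, inner ℂ c.Om v = 0 → c.nu v {p | be p = 0} = 0 ∧ c.nu v {p | al p = 0} = 0 ∧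
    c.nu v {p | tx p = 0} = 0 ∧ c.a3.nu v {k | k.1 ≤ 0} = 0
  wn : ∀ (ι : Type) (l : Filter ι) (r s : ι → ℝ) (y : ι → V) (η : ι → Completion D) η0 w,
    (∀ i, 0 < r i ∧ 0 < s i) →
    (Tendsto r l atTop ∨ Tendsto r l (𝓝 0) ∨ Tendsto s l atTop ∨ Tendsto s l (𝓝 0)) →
    Tendsto η l (𝓝 η0) → inner ℂ c.Om η0 = 0 →
    Tendsto (fun i => inner ℂ (Ut c.Q (y i) (Usc c.Q (r i) (s i) (η i))) w) l (𝓝 0)
  thin : ∀ (u : R2 → ℂ) ξ, Integrable u → inner ℂ c.Om ξ = 0 →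
    Tendsto (fun s : ℝ => ∫ y, u y • Ut c.Q (tv (s⁻¹ • y)) ξ) (𝓝[>] 0) (𝓝 0)
  tail : ∃ C κ : ℝ, 0 < κ ∧ ∀ η w (Λ C0 L : ℝ), 1 ≤ L → 0 ≤ C0 → Dm (Pa c.Q) η →
    (∀ s, ‖Gb c.Q s w - w‖ ≤ Λ * |s|) →
    (∀ s ∈ Set.Ioc (0 : ℝ) 1, c.nu η {p | al p < s} ≤ ENNReal.ofReal (C0 ^ 2 * s)) →
    ‖inner ℂ (Usc c.Q L 1 η) w‖ ≤
      C * L ^ (-κ) * (‖w‖ + Λ) * (C0 + ‖η‖ + ‖gen (Pa c.Q) η‖)

/-- row JC: the modular conjugation of the wedge, duality -/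
structure JC : Prop where
  lor : ∀ L, IsLor L → IsLor (jL L) ∧ ∀ s a z, sim s (jL L) (jr a) (jr z) = jr (sim s L a z)
  ug : ∀ s L a z, 0 < s → IsLor L → c.J (Ug c.Q s L a z) = Ug c.Q s (jL L) (jr a) (c.J z)
  S : ∀ t z, c.J (c.SK t z) = c.SK (-t) (c.J z)
  S0 : ∀ t z, c.J (c.S0 t z) = c.S0 (-t) (c.J z)
  one : ∀ m n f, IsTest f → c.J (c.T m n f c.Q.vac : D) =
    ((sj m * sj n : ℝ) : ℂ) • ((c.T m n (bar fun z => f (jr z)) c.Q.vac : D) : Completion D)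
  two : ∀ m n k l f g, IsTest f → IsTest g → c.J (c.T m n f (c.T k l g c.Q.vac) : D) =
    ((sj m * sj n * (sj k * sj l) : ℝ) : ℂ) • ((c.T m n (bar fun z => f (jr z))
      (c.T k l (bar fun z => g (jr z)) c.Q.vac) : D) : Completion D)
  jt : ∀ m n f (v v' : D), IsTest f → c.J v = v' → c.J (c.T m n f v : D) =
    (((sj m * sj n : ℝ) : ℂ) • c.T m n (bar fun z => f (jr z)) v' : D)
  dual : ∀ a b y, IsNull a → IsNull b → 0 < mdot a b →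
    (c.N (Wdg a b y)).commutant = c.N (Wdg b a y)
  alg : ∀ a b y, IsNull a → IsNull b → 0 < mdot a b → ∀ X ∈ c.N (Wdg a b y),
    jconj c.J X ∈ c.N (jr '' Wdg a b y)
  core : ∀ a b y ψ ψ', IsNull a → IsNull b → 0 < mdot a b →
    (∀ X X', Al c.Q (Wdg b a y) X X' → inner ℂ ((X' c.Q.vac : D) : Completion D) ψ =
      inner ℂ ψ' ((X c.Q.vac : D) : Completion D)) → Pr (c.N (Wdg a b y)) c.Om ψ ψ'

/-- row CH: charges on general surfaces -/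
def CH : Prop := ∀ (K : Set V) χ Ξ X (B : Fld D) f v w, IsCompact K → Chg K χ Ξ → IsSim 0 X →
  c.Q.fld B → IsTest f → tsupport f ⊆ K →
  inner ℂ w (c.Tf (dens χ Ξ X) (B f v) - B f (c.Tf (dens χ Ξ X) v)) =
    inner ℂ w (c.A X (B f v) - B f (c.A X v))

/-- row STRUCT: the contact terms of the two divergences -/
structure STRUCT : Prop where
  dv : ∀ e w, TP2 c.Q c.T e w → ∃ (k0 : ℕ)
    (O : (k : ℕ) → (Fin (k + 3) → Ix) → Sch →L[ℂ] Completion D),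
    (∀ k, CovM c.Q (k + 3) (5 - k) (O k)) ∧
    (∀ k n J (γ : Fin k → Ix) (σ : Equiv.Perm (Fin k)), O k (ix3 n J (γ ∘ σ)) = O k (ix3 n J γ)) ∧
    ∀ n J (G : S2), HasCompactSupport G → dv1 w n J G = ∑ k ∈ Finset.range (k0 + 1),
      ∑ γ : Fin k → Ix, ((k.factorial : ℂ)⁻¹) • O k (ix3 n J γ) (dg γ G)
  bi : ∀ e w, TP2 c.Q c.T e w → ∃ (k0 : ℕ)
    (O : (k : ℕ) → (Fin (k + 5) → Ix) → Sch →L[ℂ] Completion D),
    (∀ k, CovM c.Q (k + 5) (5 - k) (O k)) ∧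
    (∀ k l m n J (γ : Fin k → Ix) (σ : Equiv.Perm (Fin k)),
      O k (ix5 l m n J (γ ∘ σ)) = O k (ix5 l m n J γ)) ∧
    ∀ l m n J (G : S2), HasCompactSupport G → bi1 w l m n J G = ∑ k ∈ Finset.range (k0 + 1),
      ∑ γ : Fin k → Ix, ((k.factorial : ℂ)⁻¹) • O k (ix5 l m n J γ) (dg γ G)

/-- row WK: the kernel theorem for the product of two components of `T` -/
def WK : Prop := ∃ W : I2 → I2 → S2 →L[ℂ] Completion D,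
  (∀ K M (f g : Sch) (F : S2), (∀ x y, F (x, y) = f x * g y) →
    W K M F = ((c.T K.1 K.2 (ev f) (c.T M.1 M.2 (ev g) c.Q.vac) : D) : Completion D)) ∧
  ∀ s L a K M (F G : S2), 0 < s → IsLor L → (∀ x y, G (x, y) = F (sim s L a x, sim s L a y)) →
    W K M F = ∑ K', ∑ M', (L2 L K' K * L2 L M' M) • Ug c.Q s L a (W K' M' G)

/-- row WK for every Poincare tensor -/
def WK1 : Prop := ∃ W : I2 → I2 → S2 →L[ℂ] Completion D,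
  (∀ K M (f g : Sch) (F : S2), (∀ x y, F (x, y) = f x * g y) →
    W K M F = ((c.T K.1 K.2 (ev f) (c.T M.1 M.2 (ev g) c.Q.vac) : D) : Completion D)) ∧
  ∀ s L a K M (F G : S2), s = 1 ∨ c.can → 0 < s → IsLor L →
    (∀ x y, G (x, y) = F (sim s L a x, sim s L a y)) →
    W K M F = ∑ K', ∑ M', (L2 L K' K * L2 L M' M) • Ug c.Q s L a (W K' M' G)

/-- level 1 -/
structure T1 : Prop extends T0 c where
  gen : GEN c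
  bas : BAS c
  jc : JC c
  ch0 : c.chg → CH c

theorem T1.ch {c : Ctx D} [h : Fact c.chg] (t : T1 c) : CH c := t.ch0 h.out

/-! ## level 2 -/

/-- row ZC: covariant distributions of low dimension -/
structure ZC : Prop where
  zer : ∀ φ x y, c.Cov2 φ x y → y < -3 / 2 → ∀ f, In Set.univ f → φ f = 0
  cls : ∀ φ φ', c.Cov2 φ (-1) (-1) → c.Cov2 φ' (-1) (-1) → ∃ κ : ℂ, ∀ f f', In Set.univ f →
    In Set.univ f' → inner ℂ (φ f) (φ' f') = κ * ∫ p in Fc, conj (ft f p) * ft f' p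

/-- row TWO: the two point function of `T` -/
def TWO : Prop := ∃ C : ℝ, 0 ≤ C ∧ ∀ h k f, IsTest f → c.nu (c.Tv (hk h k f)) ≤
  (volume.restrict Fc).withDensity fun p => ENNReal.ofReal (C * nn p h * nn p k * ‖ft f p‖ ^ 2)

/-- row ELL -/
def ELL : Prop := ∃ ell c0, Ell c ell c0

/-- row KD: the domain of `K` -/
structure KD : Prop where
  a : ∀ r, 0 < r → ∃ C : ℝ, ∀ ψ ψ', Pr (c.N (Rc r 0)) c.Om ψ ψ' → Dm (Bo c.Q) ψ →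
    Dm c.SK ψ ∧ ‖gen c.SK ψ‖ ≤ C * (‖ψ‖ + ‖ψ'‖ + ‖gen (Bo c.Q) ψ‖)
  b : ∀ r r' ψ ψ', 0 ≤ r → 0 ≤ r' → Pr (c.N (Rc r 0)) c.Om ψ ψ' →
    Pr (c.N (Rc r' 0)) c.Om (c.SK (r' - r) ψ) (c.SK (r' - r) ψ')
  a2 : ∀ r r' ψ ψ', 0 ≤ r' → r' < r → Pr (c.N (Rc r 0)) c.Om ψ ψ' → Dm (Bo c.Q) ψ →
    Dm (Bo c.Q) ψ' → Pr (c.N (Rc r' 0)) c.Om (I • gen c.SK ψ) (I • gen c.SK ψ') ∧
      (Dm (Bo c.Q) (gen (Bo c.Q) ψ) → Dm c.SK (gen (Bo c.Q) ψ) ∧ Gn (Bo c.Q) (gen c.SK ψ)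
        (gen c.SK (gen (Bo c.Q) ψ) - I • gen c.SK ψ))
  slab : ∀ b1 b2 : ℝ, (b2 < 0 ∨ 0 < b1) → ∃ (m : ℕ) (C : ℝ), ∀ h k (f : Sch),
    tsupport f ⊆ {z | b1 ≤ be z ∧ be z ≤ b2} → Dm c.SK (c.Tv (hk h k (ev f))) ∧
      Dm c.SK (gen c.SK (c.Tv (hk h k (ev f)))) ∧
      ‖gen c.SK (c.Tv (hk h k (ev f)))‖ ≤ C * ‖h‖ * ‖k‖ * sn m f ∧
      ‖gen c.SK (gen c.SK (c.Tv (hk h k (ev f))))‖ ≤ C * ‖h‖ * ‖k‖ * sn m f

/-- row GOOD: smooth elements of the local algebras -/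
structure GOOD : Prop where
  dense : ∀ y r, 0 < r → Dense {z | ∃ X ∈ c.N (dc y r), c.Good X ∧ X c.Om = z}
  fld : ∀ y r (F : Ix → Ix → Sch) (m : ℕ) (η : ℝ), (∀ i j, In (dc y r) (ev (F i j))) → 0 < η →
    ∃ (F' : Ix → Ix → Sch) (X : ℕ → Completion D →L[ℂ] Completion D),
    (∀ i j, In (dc y r) (ev (F' i j)) ∧ sn m (F' i j - F i j) < η) ∧
    (∀ n, X n ∈ c.N (dc y r) ∧ c.Good (X n)) ∧ ∀ (v : D) (k : ℕ),
      TendstoLocallyUniformly (fun n => iteratedFDeriv ℝ k fun q => c.gq q (X n v))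
        (iteratedFDeriv ℝ k fun q => c.gq q (c.Tf (fun i j => ev (F' i j)) v : D)) atTop ∧
      TendstoLocallyUniformly (fun n => iteratedFDeriv ℝ k fun q => c.gq q (star (X n) v))
        (iteratedFDeriv ℝ k fun q => c.gq q (c.Tf (fun i j => bar (ev (F' i j))) v : D)) atTop

/-- row F2: the Ward identity for bounded operators -/
def F2 : Prop := ∀ y r a b y1 χ Ξ (L : ℝ → Ix → V) (x : ℝ → V) (ξ : V → V) X k, 0 < r →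
  IsNull a → IsNull b → 0 < mdot a b → X ∈ c.N (dc y r) → Chg (closure (dc y r)) χ Ξ →
  dc y r ⊆ Wdg a b y1 → tsupport χ ⊆ Wdg a b y1 → L 0 = GF.one → x 0 = 0 → (∀ e, IsLor (L e)) →
  (∀ n z, HasDerivAt (fun e => sim 1 (L e) (x e) z n) (ξ z n) 0) →
  Gn (fun e => Ug c.Q 1 (L e) (x e)) (X c.Om) k →
  Pr (c.N (Wdg a b y1)) c.Om (k + X (c.Tv (dens χ Ξ ξ))) (star X (c.Tv (dens χ Ξ ξ)))

/-- the context of a member of the family `S_l` -/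
@[reducible] def Ctx.toS [Fact c.can] (l : ℝ) : Ctx D :=
  c.wS (c.Sl l) (c.hC.fam.p2l l) ⟨fun m n f v hf => by
      simp only [Ctx.Sl, fam2, ex0, fun j => c.hC.fam.symm j m n f v hf], fun n f v hf => by
      simp only [Ctx.Sl, fam2, ex0]
      rw [Finset.sum_comm]
      exact Finset.sum_eq_zero fun j _ => by
        rw [← Finset.smul_sum, c.hC.fam.conserved j n f v hf, smul_zero], c.hC.pch l⟩

/-- the context of a component `S_j` -/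
@[reducible] def Ctx.toC [Fact c.can] (j : ℕ) : Ctx D := c.wT (c.Sj j) (c.hC.fam.p2 j)

/-- row F2L: the Ward identity for bounded operators, for the members of the family -/
def F2L [Fact c.can] : Prop := ∀ l, F2 (c.toS l)

/-- row TWOL: two point functions with logarithms -/
structure TWOL : Prop where
  s : ∃ C : ℝ, 0 ≤ C ∧ ∀ l h k f, IsTest f → c.nu (c.Sv l (hk h k f)) ≤
    (volume.restrict Fc).withDensity fun p => ENNReal.ofReal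
      (C * nn p h * nn p k * (1 + |Real.log (mu p) - 2 * l|) ^ (2 * c.k) * ‖ft f p‖ ^ 2)
  v : ∃ C : ℝ, 0 ≤ C ∧ ∀ l h f, IsTest f → c.nu (c.Vv l h f) ≤
    (volume.restrict Fc).withDensity fun p => ENNReal.ofReal
      (C * nn p h * (1 + |Real.log (mu p) - 2 * l|) ^ (2 * c.k) * ‖ft f p‖ ^ 2)
  g : ∃ C : ℝ, 0 ≤ C ∧ ∀ l f, IsTest f → c.nu (c.sl l f) ≤
    (volume.restrict Fc).withDensity fun p => ENNReal.ofReal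
      (C * (1 + |Real.log (mu p) - 2 * l|) ^ (2 * c.k) * ‖ft f p‖ ^ 2)

/-- row CUR: the current `j` is canonical, conserved and wedge local -/
structure CUR : Prop where
  lin : ∀ h (f g : Fn) (a : ℂ), IsTest f → IsTest g →
    c.jv h (fun x => f x + a * g x) = c.jv h f + a • c.jv h g
  hlin : ∀ (a : ℝ) h h' f, IsTest f → c.jv (h + a • h') f = c.jv h f + (a : ℂ) • c.jv h' f
  cont : ∀ h, Continuous fun g => c.jv h (ev g)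
  eq : ∀ l h f, IsTest f → c.jv h f = c.Vv l h f + c.sl l (dv h f)
  cov : ∀ s L a h f, 0 < s → IsLor L → IsTest f →
    Ug c.Q s L a (c.jv h fun x => f (sim s L a x)) = (s⁻¹ : ℝ) • c.jv (sim 1 L 0 h) f
  perp : ∀ h f, IsTest f → inner ℂ c.Om (c.jv h f) = 0
  cons : ∀ f, IsTest f →
    c.jv va (dv vb f) + c.jv vb (dv va f) - ∑ i, c.jv (ex i) (dv (ex i) f) = 0
  wave : ∀ h f, IsTest f → c.Wv h f = (-(1 / 3) : ℂ) • c.jv h (box f)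
  trace : ∀ f, IsTest f → (3 : ℂ) • c.l (box f) = c.Th f
  wl : ∀ h a b y f, IsNull a → IsNull b → 0 < mdot a b → In (Wdg a b y) f →
    Pr (c.N (Wdg a b y)) c.Om (c.jv h f) (c.jv h (bar f))

/-- row PW: Ward identities on the null plane, for fields -/
def PW : Prop := ∀ (u0 : ℝ) f1 f3 κ ρ, In {z | u0 < be z} f1 → In {z | be z < -u0} f3 → Cut κ →
  Tst ρ → tsupport ρ ⊆ Set.Ioo (-u0) u0 →
  Tendsto (fun L => inner ℂ (c.Th (bar f1))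
      ((c.Tf (hk va va (pr (kL κ L) ρ)) (c.Thf f3 c.Q.vac) : D) : Completion D)) atTop
    (𝓝 ((∫ t, ρ t : ℝ) * inner ℂ (c.Th (bar f1)) (gen (Pa c.Q) (c.Th f3)))) ∧
  ∀ i, Tendsto (fun L => inner ℂ (c.Th (bar f1))
      ((c.Tf (hk va va (pr (fun y => y.2 i * kL κ L y) ρ)) (c.Thf f3 c.Q.vac) : D) : Completion D))
    atTop (𝓝 ((∫ t, ρ t : ℝ) * inner ℂ (c.Th (bar f1)) (gen (Mi c.Q i) (c.Th f3)) -
      (∫ t, t * ρ t : ℝ) *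
        inner ℂ (c.Th (bar f1)) (gen (fun t => Ut c.Q (t • ex i)) (c.Th f3))))

/-- row MIR: the mirror image of the time ordered product -/
def MIR : Prop := c.tp → ∃ w, TP2 c.Q c.T false w ∧ ∀ K M (F G : S2),
  (∀ x y, G (x, y) = conj (F (jr x, jr y))) →
    w K M G = ((sj K.1 * sj K.2 * (sj M.1 * sj M.2) : ℝ) : ℂ) • c.J (c.wp K M F)

/-- row KT: the splitting `K = Kt + K0` -/
structure KT : Prop where
  add0 : ∀ s t, c.S0 (s + t) = c.S0 s * c.S0 t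
  add : ∀ s t, c.Sk (s + t) = c.Sk s * c.Sk t
  zero : c.S0 0 = 1 ∧ c.Sk 0 = 1
  uni : ∀ t, c.S0 t ∈ unitary (Completion D →L[ℂ] Completion D) ∧
    c.Sk t ∈ unitary (Completion D →L[ℂ] Completion D)
  cont : ∀ z, Continuous (fun t => c.S0 t z) ∧ Continuous fun t => c.Sk t z
  comm : ∀ s t, c.S0 s * c.Sk t = c.Sk t * c.S0 s ∧ c.SK t = c.Sk t * c.S0 t
  vac : ∀ t, c.S0 t c.Om = c.Om ∧ c.Sk t c.Om = c.Om
  ut : ∀ t y, be y = 0 → Ut c.Q y * c.Sk t = c.Sk t * Ut c.Q y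
  ga : ∀ t w, Ga c.Q w * c.Sk t = c.Sk t * Ga c.Q w
  sc : ∀ r s t, 0 < r → 0 < s → Usc c.Q r s * c.Sk t = c.Sk (t / s) * Usc c.Q r s
  pos : ∀ z w, Gn c.Sk z w → 0 ≤ (inner ℂ z w).re
  lip : ∀ z w t, 0 ≤ t → Gn c.Sk z w → ‖c.Sk t z - z‖ ^ 2 ≤ 2 * t * (inner ℂ z w).re
  dom : ∀ z, Dm c.SK z ↔ Dm c.Sk z ∧ Dm c.S0 z
  split : ∀ z, Dm c.SK z → gen c.SK z = gen c.Sk z + gen c.S0 z ∧ ‖gen c.Sk z‖ ≤ ‖gen c.SK z‖
  two : ∀ z, Dm c.SK z → Dm c.SK (gen c.SK z) → Dm c.Sk (gen c.Sk z) ∧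
    ‖gen c.Sk (gen c.Sk z)‖ ≤ ‖gen c.SK (gen c.SK z)‖
  k0 : ∀ ψ ψ', (∀ i, Dm (Mi c.Q i) ψ ∧ Dm (Mi c.Q i) (gen (Mi c.Q i) ψ)) →
    inner ℂ c.Om ψ' = 0 → Gn (Pa c.Q) ψ' (∑ i, gen (Mi c.Q i) (gen (Mi c.Q i) ψ)) →
    Gn c.S0 ψ ψ'

/-- level 2 -/
structure T2 : Prop extends T1 c where
  zc : ZC c
  two0 : c.can → TWO c
  twol0 : c.can → TWOL c
  cur0 : c.can → CUR c
  ell0 : c.can → ELL c
  kd : KD c
  good : GOOD c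
  f2l0 : ∀ [Fact c.can], F2L c
  pw0 : c.can → PW c
  mir : MIR c
  kt : KT c
  wk1 : WK1 c

theorem T2.two {c : Ctx D} [h : Fact c.can] (t : T2 c) : TWO c := t.two0 h.out
theorem T2.twol {c : Ctx D} [h : Fact c.can] (t : T2 c) : TWOL c := t.twol0 h.out
theorem T2.cur {c : Ctx D} [h : Fact c.can] (t : T2 c) : CUR c := t.cur0 h.out
theorem T2.ell {c : Ctx D} [h : Fact c.can] (t : T2 c) : ELL c := t.ell0 h.out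
theorem T2.f2l {c : Ctx D} [h : Fact c.can] (t : T2 c) : F2L c := t.f2l0
theorem T2.pw {c : Ctx D} [h : Fact c.can] (t : T2 c) : PW c := t.pw0 h.out
theorem T2.wk {c : Ctx D} [h : Fact c.can] (t : T2 c) : WK c :=
  t.wk1.imp fun _ w => ⟨w.1, fun s L a K M F G => w.2 s L a K M F G (.inr h.out)⟩

/-! ## level 3 -/

/-- row A2: `K φ` is in the form domain of `P_b` -/
structure A2 : Prop where
  abs : ∀ r, 0 < r → ∃ C : ℝ, ∀ φ φ', Pr (c.N (Rc r 0)) c.Om φ φ' → Dm (Pb c.Q) φ →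
    Dm (Pb c.Q) φ' → Dm (Bo c.Q) φ → Dm (Bo c.Q) φ' → Dm (Pb c.Q) (gen (Bo c.Q) φ) →
    Dm (Bo c.Q) (gen (Bo c.Q) φ) → c.qb (gen c.SK φ) ≤ ENNReal.ofReal (C * (‖φ‖ + ‖φ'‖ +
      ‖gen (Pb c.Q) φ‖ + ‖gen (Pb c.Q) φ'‖ + ‖gen (Bo c.Q) φ‖ + ‖gen (Bo c.Q) φ'‖ +
      ‖gen (Pb c.Q) (gen (Bo c.Q) φ)‖ + ‖gen (Bo c.Q) (gen (Bo c.Q) φ)‖) ^ 2)
  slab : ∀ b1 b2 : ℝ, b2 < 0 → ∃ (m : ℕ) (C : ℝ), ∀ h k (f : Sch),
    tsupport f ⊆ {z | b1 ≤ be z ∧ be z ≤ b2} →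
      c.qb (gen c.SK (c.Tv (hk h k (ev f)))) ≤ ENNReal.ofReal ((C * ‖h‖ * ‖k‖ * sn m f) ^ 2)

/-- row POLY: the overlaps of `T` with covariant multiplets are polynomials -/
def POLY : Prop := ∀ (N : ℕ) (d : ℤ) (O : (Fin N → Ix) → Sch →L[ℂ] Completion D),
  CovM c.Q N d O → Even (d - N) → ∃ π : Ix → Ix → (Fin N → Ix) → MvPolynomial Ix ℂ,
  (∀ r s μ (f' f : Sch), inner ℂ ((c.T r s (ev f') c.Q.vac : D) : Completion D) (O μ f) =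
    ∫ p in Fc, evp (π r s μ) p * (conj (ft (ev f') p) * ft (ev f) p)) ∧
  (∀ r s μ, (π r s μ).IsHomogeneous d.toNat ∧ (d < 0 → π r s μ = 0)) ∧
  (∀ s μ, ∑ r, MvPolynomial.C (eta r : ℂ) * MvPolynomial.X r * π r s μ = 0) ∧
  (∀ μ, ∑ r, MvPolynomial.C (eta r : ℂ) * π r r μ = 0) ∧
  (∀ r s k μ, mup ∣ π r s μ * MvPolynomial.X k - π k s μ * MvPolynomial.X r) ∧
  (∀ r s k μ, mup ∣ π r s μ * MvPolynomial.X k - π r k μ * MvPolynomial.X s) ∧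
  ∀ r s μ L p, IsLor L → evp (π r s μ) (sim 1 L 0 p) = ∑ k, ∑ l, ∑ ν : Fin N → Ix,
    ((L k r * L l s * ∏ i, L (ν i) (μ i) : ℝ) : ℂ) * evp (π k l ν) p

/-- the tools that hold for every Poincare tensor -/
structure TG : Prop extends T2 c where
  a2 : A2 c

/-- all tools -/
structure T3 : Prop extends T2 c where
  a2 : A2 c
  poly0 : c.can → POLY c
  sub : ∀ R (hR : P2 c.Q R), TG (c.wT R hR)
  subS : ∀ R (hR : P2 c.Q R) (h : Chs c.Q R c.A), TG (c.wS R hR h)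
  null : NULL
  struct0 : c.can → STRUCT c

theorem T3.poly {c : Ctx D} [h : Fact c.can] (t : T3 c) : POLY c := t.poly0 h.out
theorem T3.struct {c : Ctx D} [h : Fact c.can] (t : T3 c) : STRUCT c := t.struct0 h.out
theorem T3.tS {c : Ctx D} [Fact c.can] (t : T3 c) (l : ℝ) : TG (c.toS l) := t.subS _ _ _
theorem T3.tC {c : Ctx D} [Fact c.can] (t : T3 c) (j : ℕ) : TG (c.toC j) := t.sub _ _

/-! ## block B -/

/-- row BB: `K` is the second moment of the null energy, between bounded operators -/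
def BB : Prop := ∀ (u0 d0 : ℝ) y1 r1 y2 r2 X X' (χ : ℝ → ℝ) κ ρ (y : R2), 0 < d0 → 0 < r1 →
  0 < r2 → dc y1 r1 ⊆ {z | be z < -u0 ∧ d0 < al z} → dc y2 r2 ⊆ {z | be z < -u0 ∧ d0 < al z} →
  X ∈ c.N (dc y1 r1) → c.Good X → X' ∈ c.N (dc y2 r2) → c.Good X' → ContDiff ℝ ∞ χ →
  (∀ t, t ≤ -d0 / 2 → χ t = 0) → (∀ t, d0 / 2 ≤ t → χ t = 1) → Cut κ → Tst ρ →
  tsupport ρ ⊆ Set.Ioo (-u0) u0 →
  Tendsto (fun L => c.om2 (jconj c.J X' (X c.Om)) (star X (star (jconj c.J X') c.Om)) χ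
      (hk va va (pr (fun q => d2 (q.2 - y) (q.2 - y) * kL κ L q) ρ))) atTop
    (𝓝 (∫ u, (ρ u : ℂ) * inner ℂ (star (jconj c.J X') c.Om)
      (gen (c.Ky (tv y + u • vb)) (X c.Om))))

/-- row BBS: the same for the family `S_l`, `l = -(log L) / 2` -/
def BBS : Prop := ∀ (u0 d0 : ℝ) y1 r1 y2 r2 X X' (χ : ℝ → ℝ) κ ρ (y : R2), 0 < d0 → 0 < r1 →
  0 < r2 → dc y1 r1 ⊆ {z | be z < -u0 ∧ d0 < al z} → dc y2 r2 ⊆ {z | be z < -u0 ∧ d0 < al z} →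
  X ∈ c.N (dc y1 r1) → c.Good X → X' ∈ c.N (dc y2 r2) → c.Good X' → ContDiff ℝ ∞ χ →
  (∀ t, t ≤ -d0 / 2 → χ t = 0) → (∀ t, d0 / 2 ≤ t → χ t = 1) → Cut κ → Tst ρ →
  tsupport ρ ⊆ Set.Ioo (-u0) u0 →
  Tendsto (fun L => c.omS (-Real.log L / 2) (jconj c.J X' (X c.Om))
      (star X (star (jconj c.J X') c.Om)) χ
      (hk va va (pr (fun q => d2 (q.2 - y) (q.2 - y) * kL κ L q) ρ))) atTop
    (𝓝 (∫ u, (ρ u : ℂ) * inner ℂ (star (jconj c.J X') c.Om)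
      (gen (c.Ky (tv y + u • vb)) (X c.Om))))

/-- row BP: the same with a field above the plane -/
def BP : Prop := ∀ (u0 d0 a0 : ℝ) y1 r1 X f1 κ ρ (y : R2), 0 < d0 → 0 < r1 →
  dc y1 r1 ⊆ {z | be z < -u0 ∧ a0 + d0 < al z} → X ∈ c.N (dc y1 r1) → c.Good X →
  In {z | u0 < be z ∧ al z < a0 - d0} f1 → Cut κ → Tst ρ → tsupport ρ ⊆ Set.Ioo (-u0) u0 →
  Tendsto (fun L => inner ℂ ((c.Tf (hk va va (pr (fun q => d2 (q.2 - y) (q.2 - y) * kL κ L q) ρ))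
      (c.Thf (bar f1) c.Q.vac) : D) : Completion D) (X c.Om)) atTop
    (𝓝 (∫ u, (ρ u : ℂ) * inner ℂ (c.Th (bar f1)) (gen (c.Ky (tv y + u • vb)) (X c.Om))))

/-! ## block RES -/

/-- row RES: the residue on the source `a ∂ ⊗ a a ⊗ a ∂ Φ0` vanishes -/
def RES : Prop := ∀ (ρ1 κ2 κ3 : P3 → ℝ) (ρ2 θ1 θ3 : ℝ → ℝ) (G : S3), Tst ρ1 → Tst κ2 → Tst κ3 →
  Tst ρ2 → Tst θ1 → Tst θ3 → (∀ y ∈ tsupport ρ1, (∀ᶠ x in 𝓝 y, κ2 x = 1) ∧ ∀ᶠ x in 𝓝 y, κ3 x = 1) →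
  (∀ t ∈ tsupport ρ2, (∀ᶠ x in 𝓝 t, θ1 x = 1) ∧ ∀ᶠ x in 𝓝 t, θ3 x = 1) →
  (∀ z1 z2 z3, G (z1, z2, z3) = ((Ph0 z1 z2 z3 * ρ1 (pl z1) * ρ2 (be z2) *
    (2 * (be z1 - be z2) * deriv θ1 (be z1) * θ3 (be z3) * κ2 (pl z2) * κ3 (pl z3) +
      2 * (be z3 - be z2) * θ1 (be z1) * deriv θ3 (be z3) * κ2 (pl z2) * κ3 (pl z3) +
      θ1 (be z1) * θ3 (be z3) * dx κ2 (pl z2) (tx z2 - tx z1) * κ3 (pl z3) +
      θ1 (be z1) * θ3 (be z3) * κ2 (pl z2) * dx κ3 (pl z3) (tx z3 - tx z1)) : ℝ) : ℂ)) →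
  c.t0 G = 0

/-! ## block EV -/

/-- row FAR: far parts of the plane, and both legs on one side -/
structure FAR : Prop where
  far : ∀ (κ : P3 → ℝ) (ρ : ℝ → ℝ) (Ψ : V × V → ℂ), Tst κ → (0 : P3) ∉ tsupport κ → Tst ρ → Dc Ψ →
    Tendsto (fun L : ℝ => (L : ℂ) * c.t0 (sch fun z : V × V × V =>
      Ψ (z.1, z.2.2) * pr (kL κ L) ρ z.2.1)) atTop (𝓝 0)
  side : ∀ (u0 : ℝ) (κ : P3 → ℝ) (ρ : ℝ → ℝ) (Ψ : V × V → ℂ), Tst κ → Tst ρ → Dc Ψ →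
    tsupport ρ ⊆ Set.Ioo (-u0) u0 →
    (tsupport Ψ ⊆ {z | be z.1 < -u0 ∧ be z.2 < -u0} ∨ tsupport Ψ ⊆ {z | u0 < be z.1 ∧ u0 < be z.2}) →
    Tendsto (fun L : ℝ => (L : ℂ) * c.t0 (sch fun z : V × V × V =>
      Ψ (z.1, z.2.2) * pr (kL κ L) ρ z.2.1)) atTop (𝓝 0)

/-- row IX: the transverse boundary of the third leg -/
def IX : Prop := ∃ N : ℕ, ∀ (ρ1 κ : P3 → ℝ) (k θ ρ : ℝ → ℝ) (k' : R2 → ℝ), Tst ρ1 → Cut κ →
  Tst k → Tst θ → Tst ρ → Tst k' → (∀ j ≤ N, ∫ t, t ^ j * k t = 0) →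
  (∀ y ∈ tsupport ρ1, ∀ᶠ x in 𝓝 y.2, k' x = 1) → tsupport ρ ⊆ Set.Icc (-1) 1 →
  ∀ η > 0, ∀ᶠ ε in 𝓝[>] (0 : ℝ), ∀ δ ∈ Set.Ioc 0 ε, ∀ᶠ L in atTop,
    ‖c.t0 (sch fun z : V × V × V => ((Ph0 z.1 z.2.1 z.2.2 * ρ1 (pl z.1) * dlt δ ρ (be z.2.1) *
      (dil ε θ (be z.1) * dil ε θ (be z.2.2) * kL κ L (pl z.2.1) *
        dx (k3 k k') (pl z.2.2) (tx z.2.2 - tx z.1)) : ℝ) : ℂ))‖ ≤ η

/-- row CONM: the first moments -/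
def CONM : Prop := ∀ w (κ f : P3 → ℝ) (ρ θ1 θ : ℝ → ℝ) (f3 : Fn) (i : Fin 2),
  TP2 c.Q c.T false w → Cut κ → Tst f → Tst ρ → tsupport ρ ⊆ Set.Icc (-1 / 2) (1 / 2) → Tst θ1 →
  Bump θ → In {z | be z < 0} f3 → ∀ η > 0, ∀ᶠ δ in 𝓝[>] (0 : ℝ), ∀ᶠ L in atTop,
    ‖inner ℂ (w0 w (pairF (fun x => x i) κ f ρ θ1 δ L)) (c.Th f3) - (∫ t, ρ t : ℝ) *
      (inner ℂ (c.Th (pr f (abv θ1 θ δ))) (gen (Mi c.Q i) (c.Th f3)) -
        inner ℂ (c.Th (pr (fun y => y.2 i * f y) (abv θ1 θ δ))) (gen (Pa c.Q) (c.Th f3)))‖ ≤ η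

/-- the form of `K - 2 x.M + |x|^2 P` -/
def Ctx.AbK (f : P3 → ℝ) (φ : ℝ → ℝ) (ψ : Completion D) : ℂ :=
  inner ℂ (c.Th (pr f φ)) (gen c.SK ψ) -
    2 * ∑ i, inner ℂ (c.Th (pr (fun y => y.2 i * f y) φ)) (gen (Mi c.Q i) ψ) +
    inner ℂ (c.Th (pr (fun y => d2 y.2 y.2 * f y) φ)) (gen (Pa c.Q) ψ)

/-- row CONK: the second moment -/
def CONK : Prop := ∀ w (κ f : P3 → ℝ) (ρ θ1 θ : ℝ → ℝ) (f3 : Fn),
  TP2 c.Q c.T false w → Cut κ → Tst f → Tst ρ → tsupport ρ ⊆ Set.Icc (-1 / 2) (1 / 2) → Tst θ1 →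
  Bump θ → In {z | be z < 0} f3 → ∀ η > 0, ∀ᶠ δ in 𝓝[>] (0 : ℝ), ∀ᶠ L in atTop,
    ‖inner ℂ (w0 w (pairF (fun x => d2 x x) κ f ρ θ1 δ L)) (c.Th f3) -
      (∫ t, ρ t : ℝ) * c.AbK f (abv θ1 θ δ) (c.Th f3)‖ ≤ η

/-- row CONT: the faces -/
structure CONT : Prop where
  lo : ∀ (κ f g : P3 → ℝ) (ρ θ1 θ φ : ℝ → ℝ), Cut κ → Tst f → Tst g → Tst ρ →
    tsupport ρ ⊆ Set.Icc (-1 / 2) (1 / 2) → Tst θ1 → Bump θ → Tst φ → tsupport φ ⊆ Set.Iio 0 →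
    (∀ η > 0, ∀ᶠ δ in 𝓝[>] (0 : ℝ), ∀ᶠ L in atTop, ‖c.t0 (triF κ f g ρ θ1 φ δ L) -
      (∫ t, ρ t : ℝ) * c.PF (pr f (abv θ1 θ δ)) (pr g φ)‖ ≤ η) ∧
    Tendsto (fun δ : ℝ => (δ : ℂ) * c.PF (pr f (abv θ1 θ δ)) (pr g φ)) (𝓝[>] 0) (𝓝 0)
  hi : ∀ (κ f g : P3 → ℝ) (ρ θ1 θ φ : ℝ → ℝ), Cut κ → Tst f → Tst g → Tst ρ →
    tsupport ρ ⊆ Set.Icc (-1 / 2) (1 / 2) → Tst θ1 → Bump θ → Tst φ → tsupport φ ⊆ Set.Ioi 0 →
    (∀ η > 0, ∀ᶠ δ in 𝓝[>] (0 : ℝ), ∀ᶠ L in atTop, ‖c.t0 (triF κ f g ρ θ1 φ δ L) -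
      (∫ t, ρ t : ℝ) * c.PF (pr g φ) (pr f (blw θ1 θ δ))‖ ≤ η) ∧
    Tendsto (fun δ : ℝ => (δ : ℂ) * c.PF (pr g φ) (pr f (blw θ1 θ δ))) (𝓝[>] 0) (𝓝 0)

/-- row SCH -/
def SCH : Prop := ∀ ell c0, Ell c ell c0 → ∃ cc dd, Schur c ell cc dd

/-- row IB: the limit of the four faces -/
def IB : Prop := ∀ ell c0 cc dd, Ell c ell c0 → Schur c ell cc dd →
  ∀ (ρ1 : P3 → ℝ) (k θ : ℝ → ℝ) (k' : R2 → ℝ), Tst ρ1 → (∀ y : P3, ρ1 (-y.1, y.2) = ρ1 y) →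
  Tst k → (∀ t, k (-t) = k t) → (∀ j ≤ 4, ∫ t, t ^ j * k t = 0) → Tst k' → Bump θ →
  (∀ y ∈ tsupport ρ1, k y.1 = 1 ∧ k' y.2 = 1) → ∫ y, ρ1 y ≠ 0 →
  ∃ G : ℂ, G ≠ 0 ∧ ∀ η > 0, ∀ᶠ ε in 𝓝[>] (0 : ℝ), ∀ᶠ δ in 𝓝[>] (0 : ℝ),
    ‖c.Faces ρ1 (k3 k k') θ ε δ - G * YY cc (chp θ) (chm θ)‖ ≤ η

/-- row SW: both legs below the plane -/
def SW : Prop := ∀ ell c0 cc dd, Ell c ell c0 → Schur c ell cc dd → ∀ θ, Bump θ →
  YY cc (chp θ) (chm θ) + YY cc (chm θ) (chm θ) = 0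

/-- row YZ: the logarithmic coefficient vanishes -/
def YZ : Prop := ∀ ell c0 cc dd, Ell c ell c0 → Schur c ell cc dd → ∀ θ, Bump θ →
  YY cc (chm θ) (chm θ) = 0

/-! ## block GEO -/

/-- row D1: the trace of the defect on the null plane vanishes -/
def D1 : Prop := ∃ (Φ : ℕ → ℝ → ℝ) (C : ℝ), (∀ n, Tst (Φ n) ∧
    tsupport (Φ n) ⊆ Set.Ioo (-(1 / ((n : ℝ) + 1))) 0 ∧ ∫ t, Φ n t = 1 ∧ ∫ t, |Φ n t| ≤ C) ∧
  Tendsto (fun n => ∫ t, (t * Φ n t) ^ 2) atTop (𝓝 0) ∧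
  ∀ r, 0 ≤ r → ∀ Z ∈ (c.N (Rc r 0)).commutant, ∀ g : P3 → ℂ, Dc g →
    tsupport g ⊆ {y | r * d2 y.2 y.2 < y.1} →
    Tendsto (fun n => c.bb Z (pf g (cx (Φ n)))) atTop (𝓝 0)

/-- row DD: the potentials `σ_j` are local in forward cut cones -/
def DD : Prop := ∀ j a b r y f, IsNull a → IsNull b → mdot a b = 1 → 0 < r →
  In {z | z - y ∈ HM.Rg a b r} f →
  Pr (c.N {z | z - y ∈ HM.Rg a b r}) c.Om (c.sg j f) (c.sg j (bar f))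

/-- row EE: `K(u) - 2 u^2 P_b` is affine -/
def EE : Prop := ∀ (lo hi : ℝ) ψ, (∀ u ∈ Set.Ioo lo hi, Dm (c.Ky (u • vb)) ψ) → Dm (Pb c.Q) ψ →
  ∃ k0 k1, ∀ u ∈ Set.Ioo lo hi,
    gen (c.Ky (u • vb)) ψ = k0 + (u : ℂ) • k1 + ((2 * u ^ 2 : ℝ) : ℂ) • gen (Pb c.Q) ψ

/-- row NL: the potentials have no logarithms -/
def NL : Prop := ∀ j f, 1 ≤ j → IsTest f → c.sg j f = 0

end

end Vale.Agent.P352X.ZZ
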