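import Vale.Agent.P352Z.Wire3
import Vale.Agent.P352Z.R.BB

/-!
# P352Z: a virial current excludes logarithms in dimension four
-/

set_option linter.all false

namespace Vale.Agent.P352X.ZZ

open Vale.Agent.P352 Vale.Agent.P352.GF Vale.Agent.P352.BW Vale.Agent.P352.H15 Vale.Agent.P352Z

variable {D : Type*} [NormedAddCommGroup D] [InnerProductSpace ℂ D]

theorem open_thm : Open D := open_of bb_row

theorem nolog_core (Q : Theory D) (T : Ix → Ix → Fld D) (J : Ix → Fld D) (A : (V → V) → D → D)
    (N : Set V → VonNeumannAlgebra (UniformSpace.Completion D)) (hT : Stress0 Q T)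
    (hP : ND.PCh Q T A) (hV : Virial0 Q T J A) (hF : FSL Q) (hG : TfGen (S0.clo Q))
    (hN : LNm Q A N) (hU : UVac Q) : NoLog Q T :=
  open_thm.nolog Q T J A N hT hP hV hF hG hN hU

end Vale.Agent.P352X.ZZ
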