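import Vale.Agent.P352Z.Fam

/-!
# P352Z: the context bundle
-/

set_option linter.all false

open MeasureTheory Filter Topology
open scoped SchwartzMap ComplexConjugate ENNReal ContDiff

namespace Vale.Agent.P352X.ZZ

open Vale.Agent.P352 Vale.Agent.P352.GF Vale.Agent.P352.BW Vale.Agent.P352.H246
open Vale.Agent.P352.H496 Vale.Agent.P352.H755 Vale.Agent.P352.H15
open Vale.Agent.P132 (ModData jconj)
open UniformSpace (Completion)
open Complex (I)

noncomputable section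

/-- `(x2 - x1).(x2 - x3) (al1 - al3)^4` -/
def Ph0 (z1 z2 z3 : V) : ℝ := d2 (tx z2 - tx z1) (tx z2 - tx z3) * (al z1 - al z3) ^ 4

/-- the tensor test function `h_m ∂_n f` (lower indices) -/
def ad (h : V) (f : Fn) : Ix → Ix → Fn := fun m n x => ((eta m * h m : ℝ) : ℂ) * pd n f x

/-- the derivative with respect to the first of two points -/
def p21 (n : Ix) : S2 →L[ℂ] S2 := LineDeriv.lineDerivOpCLM ℂ S2 ((bas n 1, 0) : V × V)
/-- the derivative with respect to the second of two points -/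
def p22 (n : Ix) : S2 →L[ℂ] S2 := LineDeriv.lineDerivOpCLM ℂ S2 ((0, bas n 1) : V × V)
/-- the derivative with respect to the first of three points -/
def p31 (n : Ix) : S3 →L[ℂ] S3 := LineDeriv.lineDerivOpCLM ℂ S3 ((bas n 1, 0, 0) : V × V × V)
/-- the derivative with respect to the third of three points -/
def p33 (n : Ix) : S3 →L[ℂ] S3 := LineDeriv.lineDerivOpCLM ℂ S3 ((0, 0, bas n 1) : V × V × V)

variable {D : Type*} [NormedAddCommGroup D] [InnerProductSpace ℂ D]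

/-- **The context.** `T` is a Poincare tensor. The flag `chg` says that `T` is symmetric, conserved
and has the Poincare charges, the flag `can` that `T = S_l + (∂ V_l - η ∂.V_l) / 3` is canonical,
the flag `tp` that the time ordered products are given. -/
structure Ctx (D : Type*) [NormedAddCommGroup D] [InnerProductSpace ℂ D] where
  Q : Theory D
  T : Ix → Ix → Fld D
  A : (V → V) → D → D
  N : Set V → VonNeumannAlgebra (Completion D)
  S : V → ℝ → Completion D →L[ℂ] Completion D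
  E : ModData (N (Wdg va vb 0)) (om Q)
  wp : I2 → I2 → S2 →L[ℂ] Completion D
  wm : I2 → I2 → S2 →L[ℂ] Completion D
  t : I2 → I2 → I2 → S3 →L[ℂ] ℂ
  bt : SN.BC (fun p y : V => mdot p y) (fun y z => Ut Q y z)
  a3 : SN.BC pr3 (fun (y : P3) z => Ut Q (y.1 • va) (Ga Q y.2 z))
  k : ℕ
  Sj : ℕ → Ix → Ix → Fld D
  Vj : ℕ → Ix → Fld D
  sg : ℕ → Fn → Completion D
  hT : P2 Q T
  hG : TfGen Q
  hN : LNm Q A N
  hU : UVac Q
  hS : Grp1 Q N S
  pos : ∀ a (z w : Completion D), IsNull a → Gn (S a) z w → 0 ≤ (inner ℂ z w).re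
  bw : ∀ t z, E.U t z = Bo Q (-(2 * Real.pi * t)) z
  chg : Prop
  hP0 : chg → Chs Q T A
  can : Prop
  hC0 : can → Can Q T A N k Sj Vj sg
  tp : Prop
  hTP0 : tp → can ∧ TP Q T wp wm t

namespace Ctx

variable (c : Ctx D)

theorem hTP [h : Fact c.tp] : TP c.Q c.T c.wp c.wm c.t := (c.hTP0 h.out).2
instance tpCan [h : Fact c.tp] : Fact c.can := ⟨(c.hTP0 h.out).1⟩
theorem hP [h : Fact c.chg] : Chs c.Q c.T c.A := c.hP0 h.out
theorem hC [h : Fact c.can] : Can c.Q c.T c.A c.N c.k c.Sj c.Vj c.sg := c.hC0 h.out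
theorem ct0 [h : Fact c.can] : CT c.Q c.T := c.hC.ct

/-- the same context with another tensor field, all flags off -/
@[reducible] def wT (R : Ix → Ix → Fld D) (hR : P2 c.Q R) : Ctx D :=
  { c with T := R, hT := hR, chg := False, hP0 := False.elim, can := False, hC0 := False.elim,
           tp := False, hTP0 := False.elim }

/-- the same context with a symmetric conserved tensor field that has the Poincare charges -/
@[reducible] def wS (R : Ix → Ix → Fld D) (hR : P2 c.Q R) (h : Chs c.Q R c.A) : Ctx D :=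
  { c with T := R, hT := hR, chg := True, hP0 := fun _ => h, can := False, hC0 := False.elim,
           tp := False, hTP0 := False.elim }

instance wSchg (R : Ix → Ix → Fld D) (hR : P2 c.Q R) (h : Chs c.Q R c.A) :
    Fact (c.wS R hR h).chg := ⟨trivial⟩

/-- `S_l` -/
abbrev Sl (l : ℝ) : Ix → Ix → Fld D := fam2 c.k c.Sj l
/-- `V_l` -/
abbrev Vl (l : ℝ) : Ix → Fld D := fam1 c.k c.Vj l
/-- `σ_l` -/
abbrev sl (l : ℝ) : Fn → Completion D := fam0 c.k c.sg l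

abbrev Om : Completion D := om c.Q
abbrev J : Completion D ≃ₗᵢ⋆[ℂ] Completion D := c.E.J
/-- `exp (i t K)` -/
abbrev SK : ℝ → Completion D →L[ℂ] Completion D := c.S va
/-- `exp (i t K_y)` -/
def Ky (y : V) (t : ℝ) : Completion D →L[ℂ] Completion D := Ut c.Q y * c.S va t * Ut c.Q (-y)
/-- `exp (i t M^2 / P)` -/
def S0 (t : ℝ) : Completion D →L[ℂ] Completion D :=
  c.a3.Phi fun k => Complex.exp (I * (t * (d2 k.2 k.2 / k.1) : ℝ))
/-- `exp (i t Kt)` -/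
def Sk (t : ℝ) : Completion D →L[ℂ] Completion D := c.S va t * c.S0 (-t)
/-- spectral measures of the translations -/
abbrev nu (v : Completion D) : Measure V := c.bt.nu v
/-- the form of `P_b` -/
def qb (v : Completion D) : ℝ≥0∞ := ∫⁻ p, ENNReal.ofReal (al p) ∂c.nu v
/-- `T^{mn}(F_mn)` -/
def Tf (F : Ix → Ix → Fn) (v : D) : D := ∑ m, ∑ n, c.T m n (F m n) v
def Tv (F : Ix → Ix → Fn) : Completion D := (c.Tf F c.Q.vac : D)
/-- the multiplet `T^{mn}(h_m ∂_n f)` -/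
def Wf (h : V) (f : Fn) (v : D) : D := c.Tf (ad h f) v
def Wv (h : V) (f : Fn) : Completion D := (c.Wf h f c.Q.vac : D)
/-- the leg `T^{mn}(a_m ∂_n f)` -/
def Thf (f : Fn) (v : D) : D := c.Wf va f v
def Th (f : Fn) : Completion D := (c.Thf f c.Q.vac : D)
/-- `S_l^{mn}(F_mn)` -/
def Sf (l : ℝ) (F : Ix → Ix → Fn) (v : D) : D := ∑ m, ∑ n, c.Sl l m n (F m n) v
def Sv (l : ℝ) (F : Ix → Ix → Fn) : Completion D := (c.Sf l F c.Q.vac : D)
/-- `V_l^m(h_m f)` -/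
def Vv (l : ℝ) (h : V) (f : Fn) : Completion D :=
  ((∑ m, ((eta m * h m : ℝ) : ℂ) • c.Vl l m f c.Q.vac : D) : Completion D)
/-- the current `j = V - ∂σ`, contracted with `h` -/
def jv (h : V) (f : Fn) : Completion D := c.Vv 0 h f + c.sl 0 (dv h f)
/-- the potential of the leg: `Th f = 3 l (□ f)` -/
def l (f : Fn) : Completion D := (-(1 / 9) : ℂ) • c.jv va f
/-- `X` is smooth in norm under the boosts, the translations along `b` and the null rotations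
that fix `b` -/
def Good (X : Completion D →L[ℂ] Completion D) : Prop :=
  ContDiff ℝ ∞ fun q : ℝ × ℝ × ℝ => Bo c.Q q.1 * Pb c.Q q.2.1 * Gb c.Q q.2.2 * X *
    Gb c.Q (-q.2.2) * Pb c.Q (-q.2.1) * Bo c.Q (-q.1)
/-- the group generated by `B`, `P_b`, `M^b` -/
def gq (q : ℝ × ℝ × ℝ) : Completion D →L[ℂ] Completion D :=
  Bo c.Q q.1 * Pb c.Q q.2.1 * Gb c.Q q.2.2
/-- the defect of locality of the potential -/
def bb (Z : Completion D →L[ℂ] Completion D) (f : Fn) : ℂ :=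
  inner ℂ (star Z c.Om) (c.l f) - inner ℂ (c.l (bar f)) (Z c.Om)
/-- the form `ω(T(h,k)(g))` between `Y* Ω` and `X Ω`, with `w = Y X Ω`, `w' = X* Y* Ω` -/
def om2 (w w' : Completion D) (χ : ℝ → ℝ) (F : Ix → Ix → Fn) : ℂ :=
  inner ℂ (c.Tv fun m n z => (χ (al z) : ℝ) * bar (F m n) z) w +
    inner ℂ w' (c.Tv fun m n z => (1 - χ (al z) : ℝ) * F m n z)
/-- the same form for `S_l` -/
def omS (l : ℝ) (w w' : Completion D) (χ : ℝ → ℝ) (F : Ix → Ix → Fn) : ℂ :=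
  inner ℂ (c.Sv l fun m n z => (χ (al z) : ℝ) * bar (F m n) z) w +
    inner ℂ w' (c.Sv l fun m n z => (1 - χ (al z) : ℝ) * F m n z)
/-- `⟨T(ϑ T_aa ϑ)⟩` -/
def t0 (F : S3) : ℂ := ∑ m, ∑ n, ∑ k, ∑ l, ∑ p, ∑ q,
  ((eta m * va m * (eta k * va k) * (eta l * va l) * (eta p * va p) : ℝ) : ℂ) *
    c.t (m, n) (k, l) (p, q) (p31 n (p33 q F))
/-- the plane form of the weight `(x - x_A).(x - x_B)` between `fA` (above) and `fB` (below) -/
def PF (fA fB : Fn) : ℂ :=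
  inner ℂ (c.Th (bar fA)) (gen c.SK (c.Th fB)) -
    ∑ i, (inner ℂ (c.Th (bar fun z => (tx z i : ℝ) * fA z)) (gen (Mi c.Q i) (c.Th fB)) +
      inner ℂ (c.Th (bar fA)) (gen (Mi c.Q i) (c.Th fun z => (tx z i : ℝ) * fB z))) +
    ∑ i, inner ℂ (c.Th (bar fun z => (tx z i : ℝ) * fA z))
      (gen (Pa c.Q) (c.Th fun z => (tx z i : ℝ) * fB z))

/-- the four faces -/
def Faces (ρ1 κ3 : P3 → ℝ) (θ : ℝ → ℝ) (ε δ : ℝ) : ℂ := ∑ j : Fin 5, (![1, -4, 6, -4, 1] j : ℂ) *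
  (c.PF (pr (ap (4 - j) ρ1) (dil ε (chp θ))) (pr (ap j κ3) (blw (dil ε θ) θ δ)) +
    c.PF (pr (ap j κ3) (abv (dil ε θ) θ δ)) (pr (ap (4 - j) ρ1) (dil ε (chm θ))) +
    c.PF (pr (ap (4 - j) ρ1) (abv (dil ε θ) θ δ)) (pr (ap j κ3) (dil ε (chm θ))) +
    c.PF (pr (ap j κ3) (dil ε (chp θ))) (pr (ap (4 - j) ρ1) (blw (dil ε θ) θ δ)))

/-- distributions on test functions with compact support, with values in the Hilbert space,
covariant under the translations, the null rotations `G_w` and the scalings -/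
structure Cov2 (φ : Fn → Completion D) (x y : ℝ) : Prop where
  lin : ∀ (f g : Fn) (a : ℂ), In Set.univ f → In Set.univ g →
    φ (fun z => f z + a * g z) = φ f + a • φ g
  bd : ∀ K : Set V, IsCompact K → ∃ (m : ℕ) (C : ℝ), ∀ g : Sch, tsupport g ⊆ K →
    ‖φ (ev g)‖ ≤ C * sn m g
  tra : ∀ a f, In Set.univ f → Ut c.Q a (φ fun z => f (z + a)) = φ f
  rot : ∀ w f, In Set.univ f → Ga c.Q w (φ fun z => f (gap w z)) = φ f
  sca : ∀ r s f, 0 < r → 0 < s → In Set.univ f →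
    Usc c.Q r s (φ fun z => f (scp r s z)) = ((r ^ x * s ^ y : ℝ) : ℂ) • φ f
  perp : ∀ f, In Set.univ f → inner ℂ c.Om (φ f) = 0

end Ctx

/-- `∂^l (w^{mn} - w^{nm})` in the first slot -/
def cu1 (w : I2 → I2 → S2 →L[ℂ] Completion D) (l m n : Ix) (J : I2) (G : S2) : Completion D :=
  (eta l : ℂ) • (w (m, n) J (p21 l G) - w (n, m) J (p21 l G))

/-- the Bianchi divergence in the first slot -/
def bi1 (w : I2 → I2 → S2 →L[ℂ] Completion D) (l m n : Ix) (J : I2) (G : S2) : Completion D :=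
  cu1 w l m n J G + cu1 w m n l J G + cu1 w n l m J G

/-- the index `(l, m, n, j1, j2, γ)` -/
def ix5 {k : ℕ} (l m n : Ix) (J : I2) (γ : Fin k → Ix) : Fin (k + 5) → Ix :=
  Matrix.vecCons l (Matrix.vecCons m (ix3 n J γ))

/-- `w(T_aa, ϑ)` -/
def w0 (w : I2 → I2 → S2 →L[ℂ] Completion D) (F : S2) : Completion D := ∑ k, ∑ l, ∑ p, ∑ q,
  ((eta k * va k * (eta l * va l) * (eta p * va p) : ℝ) : ℂ) • w (k, l) (p, q) (p22 q F)

/-- the potential in momentum space -/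
structure Ell (c : Ctx D) (ell : (V → ℂ) → Completion D) (c0 : ℝ) : Prop where
  nonneg : 0 ≤ c0
  lin : ∀ ψ ψ' (a : ℂ), MemLp ψ 2 (volume.restrict Fc) → MemLp ψ' 2 (volume.restrict Fc) →
    ell (fun p => ψ p + a * ψ' p) = ell ψ + a • ell ψ'
  inn : ∀ ψ ψ', MemLp ψ 2 (volume.restrict Fc) → MemLp ψ' 2 (volume.restrict Fc) →
    inner ℂ (ell ψ) (ell ψ') = c0 * ∫ p in Fc, conj (ψ p) * ψ' p
  pot : ∀ f, IsTest f → ell (ft (dv va f)) = c.l f
  th : ∀ f, IsTest f → c.Th f = (-3 : ℂ) • ell fun p => (mu p : ℝ) * ft (dv va f) p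
  phi : ∀ g ψ, SN.Bd g → MemLp ψ 2 (volume.restrict Fc) →
    c.bt.Phi g (ell ψ) = ell fun p => g p * ψ p
  cov : ∀ s L a (κ : ℝ) ψ ψ', 0 < s → IsLor L → sim 1 L 0 va = κ • va →
    MemLp ψ 2 (volume.restrict Fc) →
    (∀ p, ψ' (sim 1 L 0 p) =
      (s ^ 2 : ℝ) * Complex.exp (I * mdot (sim 1 L 0 p) a) * ψ (s • p)) →
    Ug c.Q s L a (ell ψ) = ell ψ'
  s0 : ∀ (t : ℝ) (g g' : 𝓢(P3, ℂ)) (φ : ℝ → ℝ → ℂ), Measurable (Function.uncurry φ) →
    (∀ y : P3, g' y = g (y.1 - t * d2 y.2 y.2, y.2)) →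
    MemLp (fun p => ft3 g (pm p) * φ (be p) (mu p)) 2 (volume.restrict Fc) →
    MemLp (fun p => ft3 g' (pm p) * φ (be p) (mu p)) 2 (volume.restrict Fc) ∧
    c.S0 t (ell fun p => ft3 g (pm p) * φ (be p) (mu p)) =
      ell fun p => ft3 g' (pm p) * φ (be p) (mu p)

/-- the form of `Kt` on the vectors `Tht` -/
structure Schur (c : Ctx D) (ell : (V → ℂ) → Completion D) (cc : (ℝ → ℝ) → (ℝ → ℝ) → ℂ)
    (dd : (ℝ → ℝ) → ℝ) : Prop where
  dom : ∀ γ φ, MemLp γ 2 m3 → D0 φ → Dm c.Sk (Tht ell γ φ)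
  form : ∀ γ' φ' γ φ, MemLp γ' 2 m3 → D0 φ' → MemLp γ 2 m3 → D0 φ →
    inner ℂ (Tht ell γ' φ') (gen c.Sk (Tht ell γ φ)) = cc φ' φ * ∫ k, conj (γ' k) * γ k ∂m3
  nrm : ∀ γ φ, MemLp γ 2 m3 → D0 φ →
    ‖gen c.Sk (Tht ell γ φ)‖ ^ 2 = dd φ * ∫ k, ‖γ k‖ ^ 2 ∂m3
  scc : ∀ φ' φ s, D0 φ' → D0 φ → 0 < s → cc (dil s φ') (dil s φ) = cc φ' φ
  sdd : ∀ φ s, D0 φ → 0 < s → dd (dil s φ) = s * dd φ
  cont : ∀ φ' φ, D0 φ' → D0 φ → ContinuousOn (fun s => cc (dil s φ') φ) (Set.Ioi 0)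
  int : ∀ φ' φ, D0 φ' → D0 φ →
    IntegrableOn (fun s : ℝ => cc (dil s φ') φ / s) (Set.Ioi 0)

end

end Vale.Agent.P352X.ZZ
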