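import Vale.Agent.P352.ND.Defs

open Filter Topology

namespace Vale.Agent.P352Z

open Vale.Agent.P352.GF
open Vale.Agent.P352.ND (cur)

variable {D : Type*} [NormedAddCommGroup D] [InnerProductSpace ℂ D]

/-- The dilation current `x^n T_{0n} - J_0`, smeared with `g`. -/
noncomputable def dcur (T : Ix → Ix → Fld D) (J : Ix → Fld D) (g : Fn) (u : D) : D :=
  cur T id g u - J o g u

/-- `J` is a virial current of `T`: a local vector field, with contravariant components `J m`, whose
divergence is the trace of `T`, such that the regularized charge of the conserved current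
`x^n T_{mn} - J_m` has the same commutators with the fields as the generator `A id` of the
dilations. The behaviour of `J` under dilations is not prescribed. -/
structure Virial0 (Q : Theory D) (T : Ix → Ix → Fld D) (J : Ix → Fld D)
    (A : (V → V) → D → D) : Prop where
  bose : ∀ m, Q.bose (J m)
  cov : ∀ m L a f v, IsLor L → IsTest f → J m f (Q.U 1 L a v) =
    ∑ k, (L k m : ℂ) • Q.U 1 L a (J k (fun x => f (sim 1 L a x)) v)
  div : ∀ f v, IsTest f → tr T f v = -∑ m, J m (pd m f) v
  dil : ∀ F (B : Fld D) f v w, IsCutoff F → Q.fld B → IsTest f → HasCompactSupport f →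
    Tendsto (fun R => inner ℂ w (dcur T J (F R) (B f v) - B f (dcur T J (F R) v))) atTop
      (𝓝 (inner ℂ w (A id (B f v) - B f (A id v))))

end Vale.Agent.P352Z
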