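import Vale.Agent.P352X.R.LIE
import Vale.Agent.P352X.R.KER
import Vale.Agent.P352X.R.GFF
import Vale.Agent.P352X.R.UQ
import Vale.Agent.P352X.R.SYM
import Vale.Agent.P352Z.R.GRP
import Vale.Agent.P352Z.R.GEN
import Vale.Agent.P352Z.R.BAS
import Vale.Agent.P352Z.R.JC
import Vale.Agent.P352Z.R.CH
import Vale.Agent.P352Z.R.ZC
import Vale.Agent.P352Z.R.ELL
import Vale.Agent.P352Z.R.KD
import Vale.Agent.P352Z.R.GOOD
import Vale.Agent.P352Z.R.F2
import Vale.Agent.P352Z.R.MIR
import Vale.Agent.P352Z.R.KT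
import Vale.Agent.P352Z.R.WK
import Vale.Agent.P352Z.R.A2
import Vale.Agent.P352Z.R.NULL
import Vale.Agent.P352Z.R.STRUCT
import Vale.Agent.P352Z.R.TWO.St
import Vale.Agent.P352Z.SG.Rows
import Vale.Agent.P352Z.SA.PolyL

/-!
# P352Z: the tools hold in every context
-/

set_option linter.all false

namespace Vale.Agent.P352X.ZZ

variable {D : Type*} [NormedAddCommGroup D] [InnerProductSpace ℂ D]

theorem t0_thm (c : Ctx D) : T0 c := ⟨lie_row, ker_row, gff_row, uq_row, sym_row, grp_row c⟩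

theorem t1_thm (c : Ctx D) : T1 c :=
  have t := t0_thm c
  ⟨t, gen_row c t, bas_row c t, jc_row c t, ch_row c⟩

theorem t2_of (c : Ctx D) (pw : c.can → PW c) : T2 c :=
  have t := t1_thm c
  ⟨t, zc_row c t, two_row c t, twol_row c t, cur_row c t, ell_row c (cur_row c t), kd_row c t,
    good_row c t, f2l_row c t fun l => t1_thm _, pw, mir_row c t, kt_row c t, wk_row c t⟩

theorem tg_of (c : Ctx D) (pw : c.can → PW c) : TG c := ⟨t2_of c pw, a2_row c (t2_of c pw)⟩

theorem t3_of (c : Ctx D) (pw : c.can → PW c) : T3 c :=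
  have t := t2_of c pw
  ⟨t, a2_row c t, Pl.poly_row c t, fun _ _ => tg_of _ False.elim, fun _ _ _ => tg_of _ False.elim,
    null_row, struct_row c⟩

/-- all tools, when the flag `can` is off -/
theorem t3_off (c : Ctx D) (h : ¬c.can) : T3 c := t3_of c fun k => (h k).elim

end Vale.Agent.P352X.ZZ
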