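import Vale.Agent.P352Z.Wire0
import Vale.Agent.P352Z.R.PW

/-!
# P352Z: all tools
-/

set_option linter.all false

namespace Vale.Agent.P352X.ZZ

variable {D : Type*} [NormedAddCommGroup D] [InnerProductSpace ℂ D]

theorem t3_thm (c : Ctx D) : T3 c := t3_of c (pw_row c (t0_thm c).grp)

end Vale.Agent.P352X.ZZ
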