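import Vale.Agent.P352Z.Wire1
import Vale.Agent.P352Z.R.CTX
import Vale.Agent.P352Z.SA.Thm
import Vale.Agent.P352Z.SG.Pot
import Vale.Agent.P352Z.S0.Nl

/-!
# P352Z: from the blocks to the absence of logarithms
-/

set_option linter.all false

namespace Vale.Agent.P352X.ZZ

open Vale.Agent.P352 Vale.Agent.P352.GF Vale.Agent.P352.BW Vale.Agent.P352.H246
open Vale.Agent.P352.H15 Vale.Agent.P352Z
open UniformSpace (Completion)

variable {D : Type*} [NormedAddCommGroup D] [InnerProductSpace ℂ D]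

/-- the blocks TPD and the main chain -/
structure Open (D : Type*) [NormedAddCommGroup D] [InnerProductSpace ℂ D] : Prop where
  tpl : ∀ c : Ctx D, TPD.TPL c
  tpd : ∀ (c : Ctx D) [Fact c.can], ∃ wp wm t, TP c.Q c.T wp wm t
  nl : ∀ (c : Ctx D) [Fact c.tp], NL c

theorem Open.sj (H : Open D) {Q : Theory D} {A : (V → V) → D → D}
    {N : Set V → VonNeumannAlgebra (Completion D)} {k : ℕ} {Sj : ℕ → Ix → Ix → Fld D}
    {Vj : ℕ → Ix → Fld D} (h : S0.Out Q A k Sj Vj) (hG : TfGen Q) (hN : LNm Q A N) (hU : UVac Q)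
    (j : ℕ) (m n : Ix) (f : Fn) (v : D) (hj : 1 ≤ j) (hf : IsTest f) : Sj j m n f v = 0 := by
  obtain ⟨c, rfl, -, rfl, rfl, -⟩ := ctx_row D Q _ A N k Sj Vj 0 0 0 0 False False (h.p2j 0) hG hN
    hU False.elim False.elim
  have h0 := SA.sa_thm c (H.tpl c) h
  obtain ⟨sg, hp⟩ := sg_thm c (t1_thm c).jc h.fam fun j m n f hj hf => h0 j m n f _ hj hf
  have hc := h.can h0 hp
  let c1 : Ctx D := { c.wT _ (h.p2j 0) with
    k := k, Sj := Sj, Vj := Vj, sg := sg, can := True, hC0 := fun _ => hc, hTP0 := False.elim }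
  obtain ⟨wp, wm, t, ht⟩ := @H.tpd c1 ⟨trivial⟩
  have nl := @H.nl { c1 with
    wp := wp, wm := wm, t := t, tp := True, hTP0 := fun _ => ⟨trivial, ht⟩ } ⟨trivial⟩
  have hV : ∀ m f, IsTest f → Vj j m f v = 0 := fun m f hf =>
    FE.bz ((h.fam.p1 j).bose m) (fun g hg => Completion.coe_injective D (by
      rw [hp.grad j m g hj hg, show sg j _ = 0 from nl j _ hj (Ap.test_pd m hg), smul_zero,
        Completion.coe_zero])) hf v
  simpa only [improveJ, fun m n => hV m _ (Ap.test_pd n hf), smul_zero, Finset.sum_const_zero,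
    sub_zero, add_zero] using h0 j m n f v hj hf

/-- **a virial current excludes logarithms** -/
theorem Open.nolog (H : Open D) (Q : Theory D) (T : Ix → Ix → Fld D) (J : Ix → Fld D)
    (A : (V → V) → D → D) (N : Set V → VonNeumannAlgebra (Completion D)) (hT : Stress0 Q T)
    (hP : ND.PCh Q T A) (hV : Virial0 Q T J A) (hF : FSL Q) (hG : TfGen (S0.clo Q))
    (hN : LNm Q A N) (hU : UVac Q) : NoLog Q T :=
  let ⟨_, _, _, h, hS⟩ := S0.s0a hT hP hV hN.toRep hF
  S0.nolog hT hN.toRep hU h hS (H.sj h hG (S0.clo_lnm hN) hU)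

end Vale.Agent.P352X.ZZ
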