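import Vale.Agent.P352Z.Wire2
import Vale.Agent.P352Z.R.CONK
import Vale.Agent.P352Z.R.CONM
import Vale.Agent.P352Z.R.D1
import Vale.Agent.P352Z.R.DD
import Vale.Agent.P352Z.R.EE
import Vale.Agent.P352Z.R.FAR
import Vale.Agent.P352Z.R.IB
import Vale.Agent.P352Z.R.SW
import Vale.Agent.P352Z.R.SCH
import Vale.Agent.P352Z.R.NL
import Vale.Agent.P352Z.R.IX
import Vale.Agent.P352Z.R.CONT
import Vale.Agent.P352Z.R.YZ
import Vale.Agent.P352Z.R.RES
import Vale.Agent.P352Z.TPD.Main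

/-!
# P352Z: the main chain
-/

set_option linter.all false

namespace Vale.Agent.P352X.ZZ

variable {D : Type*} [NormedAddCommGroup D] [InnerProductSpace ℂ D]

theorem nl_of (c : Ctx D) [Fact c.tp] (bb : T3 c → BB c) : NL c :=
  Rows.main ⟨bb, res_row c, far_row c, ix_row c, conm_row c, conk_row c, cont_row c, sch_row c,
    ib_row c, sw_row c, yz_row c, d1_row c, dd_row c, ee_row c, nl_row c⟩ (t3_thm c)

theorem open_of (bb : ∀ (c : Ctx D) [Fact c.can], T3 c → BB c) : Open D :=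
  ⟨fun c => TPD.tpl_thm c (t3_thm c), fun c _ => TPD.tpd_thm c (t3_thm c), fun c _ => nl_of c (bb c)⟩

end Vale.Agent.P352X.ZZ
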