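import Vale.Agent.P352Z.Wire4
import Vale.Agent.P352Z.FX.E

/-!
# P352Z: a virial current excludes logarithms in the stress tensor
-/

set_option linter.all false

namespace Vale.Agent.P352X.ZZ

open Vale.Agent.P352 Vale.Agent.P352.GF Vale.Agent.P352.BW Vale.Agent.P352Z
open UniformSpace (Completion)

variable {D : Type*} [NormedAddCommGroup D] [InnerProductSpace ℂ D]

theorem core_thm : EG.Fx.Core D := nolog_core

/-- theories of Bose fields -/
theorem nolog_net {Q : Theory D} {T : Ix → Ix → Fld D} {J : Ix → Fld D} {A : (V → V) → D → D}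
    {N : Set V → VonNeumannAlgebra (Completion D)} (hT : Stress0 Q T) (hA : ND.PCh Q T A)
    (hV : Virial0 Q T J A) (hG : TfGen Q) (hF : FSL Q) (hN : LNm Q A N) (hU : L.UVac Q) :
    NoLog Q T := core_thm Q T J A N hT hA hV hF (S0.clo_tf hG) hN hU

/-- graded theories -/
theorem nolog_gr {Q : Theory D} {G : D → D} {T : Ix → Ix → Fld D} {J : Ix → Fld D}
    {A : (V → V) → D → D} {Γ : Completion D →L[ℂ] Completion D}
    {N : Set V → VonNeumannAlgebra (Completion D)} (hT : Stress0 Q T) (hA : ND.PCh Q T A)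
    (hV : Virial0 Q T J A) (hF : FSL Q) (hN : LNg Q G A Γ N) (hU : L.UVac Q) (hE : EBd Q) :
    NoLog Q T := EG.Fx.nologG (c := ⟨Q, G, A, Γ, N, hN⟩) core_thm hT hA hV hF hU hE

end Vale.Agent.P352X.ZZ
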